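import Crest.Agent.X212.Msi61.Lc0
import Crest.Agent.X212.Lix26.Defs

/-!
# Row 212, LIX-CY (helper61)
-/

set_option autoImplicit false
noncomputable section

namespace Crest.Agent.X212.Msi61
open An M Nd18

/-- **LEAF CY** -/
theorem cyStmt {Y : Mf 3} [CompactSpace Y.M] {κ lam : Type} [Fintype κ] [Fintype lam]
    (D : YD Y.I Y.M κ lam) : Lix26.CyStmt D :=
  fun _ h _ b => Lc.cy h.ld.isLocalHomeomorph h.sj h.dk b

end Crest.Agent.X212.Msi61
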