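import Crest.Agent.X212.Nd18.Ms2
import Crest.Agent.X212.Nd18.Aps
import Crest.Agent.X212.Eqv71.Nat
import Crest.Agent.X212.Nk89.Geo

/-!
# Row 212, MS-INST (helper61): the twisted equations on the cylinder, charts and leaves
-/

set_option autoImplicit false
set_option linter.unusedSectionVars false
noncomputable section
open scoped Manifold ContDiff Topology InnerProductSpace
open MeasureTheory Set Function Filter

namespace Crest.Agent.X212.Msi61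
open An M Cyf70 Mod61 Map77 Nk89 Nd18 Eqv71

section tw
variable {E : Type} [NormedAddCommGroup E] [NormedSpace ℝ E] [FiniteDimensional ℝ E]
  [MeasurableSpace E] [BorelSpace E]
  {HM : Type} [TopologicalSpace HM] {I : ModelWithCorners ℝ E HM} [I.Boundaryless]
  {M : Type} [TopologicalSpace M] [ChartedSpace HM M] [IsManifold I ∞ M]
  [MeasurableSpace M] [T2Space M] [BorelSpace M] [SecondCountableTopology M]
  {ι lam : Type} [Fintype ι] [Fintype lam] {r n m : ℕ}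

/-- the spinor rotated by the angle `θ x` -/
@[reducible] def rot (θ : M → ℝ) (c : Cfg M ι lam r) : Cfg M ι lam r :=
  ⟨c.m, c.W, fun x => cs c.m.J (Circle.exp (θ x)) (c.Φ x), c.z⟩

/-- twisted equations -/
def twP (θ : M → ℝ) (p : PtX M ι lam r n m) : PtX M ι lam r n m where
  D c x := cs c.m.J (Circle.exp (-θ x)) (p.D (rot θ c) x)
  C c x := p.C (rot θ c) x
  S c := p.S (rot θ c)
  R c := p.R (rot θ c)

end tw

variable {κ lam : Type} [Fintype κ] [Fintype lam] {Y : Mf 3} [CompactSpace Y.M]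

/-- the angle: `0` for times `≤ 0`, `t` for times `≥ 1` -/
def ang (t : ℝ) (x : Y.M × ℝ) : ℝ := t * hc 1 0 x.2

variable (N : ND Y.M lam) (D : YD Y.I Y.M κ lam)

/-- the twisted equations; the parameter is the relative phase -/
def eT (t : ℝ) : PtX (Y.M × ℝ) (Option κ) lam 0 0 0 := twP (ang t) (eZ N D)

/-- the twisted perturbations -/
def τT (w : YW Y.I Y.M) (t : ℝ) : PtX (Y.M × ℝ) (Option κ) lam 0 0 0 :=
  twP (ang t) (-⟨N.q2 D.nk w.1, fun _ => 0⟩)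

/-- the equations of trajectories -/
def eQ (q : YW Y.I Y.M →₀ ℝ) : PtX (Y.M × ℝ) (Option κ) lam 0 0 0 :=
  eq0 D.B D.G 0 0 0 - ⟨N.pt D.nk q, fun _ => 0⟩

variable {D} in
/-- admissible weights -/
structure Wd (δ : ℝ) : Prop where
  ok : (XD.mk Y D N).OK
  d0 : 0 < δ
  hs : ∀ s, (δ * deriv Nk89.ab s) ^ 2 ≤ 1 / 4
  d2 : δ ≤ 1 / 16
  dN : δ < N.δ

theorem clo (b : Bool) : IsClopen (spO b (univ : Set (Y.M × ℝ))) := by
  cases b
  exacts [isClopen_empty, isClopen_univ]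

variable {N D} in
/-- the cylinder with its two ends -/
abbrev Wd.X {δ : ℝ} (h : Wd (D := D) N δ) (b : Bool) : Ends (famZ ℝ D δ (spO b univ)) δ :=
  endsZ ℝ h.ok.ok (hY := h.ok.con.toPreconnectedSpace) h.d0 (clo b) h.hs

/-- LEAF MS-AFF (62): the twisted equations in a chart which contains a solution -/
def AffL (δ : ℝ) : Prop := ∀ (h : Wd (D := D) N δ) b (o : Ref (famZ ℝ D δ (spO b univ))) [o.B0] R
  q (y : Pnt o 0), (h.X b).Lit o R → y.t = 0 → (eQ N D q).Zr y.cfg univ (spO b univ) →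
  Aff o (Fs (famZ ℝ D δ (spO b univ))) 0 0 0 (eT N D) ∧ ∀ w, o.Sm (τT N D w)

/-- LEAF MS-LOC: the untwisted equations at the two ends of a literal reference -/
def LocL (k : ℕ) (δ : ℝ) : Prop := ∀ (h : Wd (D := D) N δ) b (o : Ref (famZ ℝ D δ (spO b univ)))
  [o.B0] R q a t h1 h0, (h.X b).Lit o R →
  ((h.X b).P a).Loc o k δ R (fun _ => eQ N D q) t h1 h0 (eZ N D)

variable {N D} (S : N.CD D) (Γ : Gr S.C)

/-- LEAF MS-ELIM (35): trajectories converge exponentially -/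
def ElL (d : ℝ) (q : YW Y.I Y.M →₀ ℝ) : Prop := ∀ i j c ζ ζ', N.Traj D q c (S.β i) (S.β j) ζ ζ' →
  D.nk.ELim d c (S.β i) ζ atBot ∧ D.nk.ELim d c (S.β j) ζ' atTop

variable (D) in
/-- uniform exponential tails in the direction `σ` (the output of `Dec35.tail`) -/
def Tl (d : ℝ) {α : Type} (l : Filter α) (c : α → Cfg (Y.M × ℝ) (Option κ) lam 0) (β : YC Y.M κ lam)
    (σ : ℝ) : Prop :=
  ∃ (T : ℝ) (v : ∀ i, Y.M × ℝ → CL (c i).m.V β.m.V) (ζ : α → Circle),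
    (∀ᶠ i in l, ∀ k, ∃ C, ∀ s, T ≤ s →
      D.Cls (c i) β (v i) (ζ i) (Ioo (σ * s - 1) (σ * s + 1)) k (C * Real.exp (-d * s))) ∧
    ∀ k, ∃ C, ∀ᶠ i in l, ∀ s, T ≤ s →
      D.Cls (c i) β (v i) (ζ i) (Ioo (σ * s - 1) (σ * s + 1)) k (C * Real.exp (-d * s))

variable (D) in
/-- strong convergence -/
structure Stg (d : ℝ) {α : Type} (l : Filter α) (c : α → Cfg (Y.M × ℝ) (Option κ) lam 0)
    (c₀ : Cfg (Y.M × ℝ) (Option κ) lam 0) (β β' : YC Y.M κ lam) : Prop where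
  lim : ∃ u ζ, ULim (IC Y.I) D.B l univ (fun _ => D.Z.e) c c₀ u ζ
  bot : Tl D d l c β (-1)
  top : Tl D d l c β' 1

/-- LEAF MS-COMP (43): strong convergence after translations, or breaking -/
def CmpL (d : ℝ) (Adm : (YW Y.I Y.M →₀ ℝ) → Prop) : Prop :=
  ∀ i j (n : ℤ) (b : Bool) q₀, Adm q₀ → ∀ (ι : Type) (𝒰 : Ultrafilter ι) (q : ι → YW Y.I Y.M →₀ ℝ)
    (c : ι → Cfg (Y.M × ℝ) (Option κ) lam 0), St.Cv (𝒰 : Filter ι) q q₀ →
    (∀ᶠ m in (𝒰 : Filter ι), Adm (q m) ∧ S.Mv Γ (q m) i j n (c m) ∧ S.Ty (c m) b) →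
    (∃ (c₀ : _) (s : ι → ℝ), S.Mv Γ q₀ i j n c₀ ∧ (b = false → Zr c₀ univ) ∧
      Stg D d 𝒰 (fun m => sh (s m) (c m)) c₀ (S.β i) (S.β j)) ∨
    ∃ ζ ζ' l, S.ChP q₀ (fun c => b = false → Zr c univ) i ζ j ζ' (Γ.k j - Γ.k i + n) l ∧
      (l = 1 → i = j ∧ n = 1)

/-- LEAF MS-ELIM for small perturbations -/
def ElS : Prop := ∃ d > 0, An.Sml fun Adm => ∀ q, Adm q → ElL S d q

/-- LEAF MS-COMP for small perturbations -/
def CmpS : Prop := ∃ d > 0, An.Sml fun Adm => St.IsOp Adm →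
  (∀ q, Adm q → S.Lev Γ q ∧ S.Pos q) → CmpL S Γ d Adm

end Crest.Agent.X212.Msi61
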