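import Crest.Agent.X212.Msi61.Lf

/-!
# Row 212, MS-INST (helper61): rotations and twisted equations
-/

set_option autoImplicit false
set_option linter.unusedSectionVars false
noncomputable section
open scoped Manifold ContDiff Topology InnerProductSpace
open MeasureTheory Set Function Filter

namespace Crest.Agent.X212.Msi61
open An M Cyf70 Mod61 Map77 Nk89 Nd18 Eqv71 Sob92

section tw
variable {E : Type} [NormedAddCommGroup E] [NormedSpace ℝ E] [FiniteDimensional ℝ E]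
  [MeasurableSpace E] [BorelSpace E]
  {HM : Type} [TopologicalSpace HM] {I : ModelWithCorners ℝ E HM} [I.Boundaryless]
  {M : Type} [TopologicalSpace M] [ChartedSpace HM M] [IsManifold I ∞ M]
  [MeasurableSpace M] [T2Space M] [BorelSpace M] [SecondCountableTopology M]
  {ι lam : Type} [Fintype ι] [Fintype lam] {r n m : ℕ} {B : Base M ι lam} {G : Geo I M ι lam}
  {θ θ' : M → ℝ} {c c' : Cfg M ι lam r} {O O' : Set M} {p p' : PtX M ι lam r n m}

theorem sm_csL {κ : Type} [Fintype κ] (J : En κ) (h : Sm I θ) :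
    Sm I fun x => csL J (Circle.exp (θ x)) := by
  have e : (fun x => csL J (Circle.exp (θ x))) =
      fun x => Real.cos (θ x) • (1 : En κ) + Real.sin (θ x) • J := funext fun x => by
    simp [csL, Circle.coe_exp, Complex.exp_ofReal_mul_I_re, Complex.exp_ofReal_mul_I_im]
  rw [e]
  exact ((Real.contDiff_cos.comp_contMDiff h).smul contMDiff_const).add
    ((Real.contDiff_sin.comp_contMDiff h).smul contMDiff_const)

theorem adm0_rot (hθ : Sm I θ) (h : Adm0 c B G) : Adm0 (rot θ c) B G :=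
  ⟨h.ok, h.conn, (sm_csL c.m.J hθ).clm_apply h.sm, fun x => by
    rw [map_cs (Wz78.J_pp h.ok x).symm, h.pos]⟩

theorem ad0_rot (hθ : Sm I θ) (h : Ad0 c B G) : Ad0 (rot θ c) B G := ad0_of (adm0_rot hθ h.adm0)

theorem cs_cs {κ : Type} [Fintype κ] {J : En κ} (h : J * J = -1) (a b : Circle) (v : Eu κ) :
    cs J a (cs J b v) = cs J (a * b : Circle) v := by rw [cs_mul h, Circle.coe_mul]

theorem rot_rot (h : c.m.J * c.m.J = -1) : rot θ (rot θ' c) = rot (θ + θ') c := by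
  simp only [rot, cs_cs h, ← Circle.exp_add, Pi.add_apply]

theorem rot_zero (h : ∀ x, θ x = 0) : rot θ c = c := by simp [rot, h]

theorem rot_neg (h : c.m.J * c.m.J = -1) : rot θ (rot (-θ) c) = c := by
  rw [rot_rot h]; exact rot_zero fun x => by simp

theorem neg_rot (h : c.m.J * c.m.J = -1) : rot (-θ) (rot θ c) = c := by
  rw [rot_rot h]; exact rot_zero fun x => by simp

theorem rot_off (h : ∀ x ∉ O', c.Φ x = 0) : ∀ x ∉ O', (rot θ c).Φ x = 0 := fun x hx => by
  simp only [h x hx, cs_zero]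

theorem eqOn_rot {F : Fr I M ι} {u : M → CL c.m.V c'.m.V} {ζ : Circle}
    (hJ : c'.m.J * c'.m.J = -1) (e : Mod61.EqOn B F O c c' u ζ) :
    Mod61.EqOn B F O (rot θ c) (rot θ c') u ζ :=
  ⟨e.m, e.W, fun x hx => by
    have := e.Φ x hx
    simp only [id] at this ⊢
    rw [this, map_cs (e.m.J x hx), cs_cs hJ, cs_cs hJ, mul_comm], e.z⟩

theorem natOn_twP (hθ : Sm I θ) (hs : O' ⊆ O) (h : NatOn B G O O' p) :
    NatOn B G O O' (twP θ p) := fun c c' u ζ a a' b b' e => by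
  obtain ⟨h1, h2⟩ := h (rot θ c) (rot θ c') u ζ (adm0_rot hθ a) (adm0_rot hθ a') (rot_off b) (rot_off b')
    (eqOn_rot a'.ok.Jsq e)
  refine ⟨fun x hx => ?_, h2⟩
  simp only [twP]
  rw [h1 x hx, map_cs (e.m.J x (hs hx)), cs_cs a'.ok.Jsq, cs_cs a'.ok.Jsq, mul_comm]

theorem sum_ev {α : Type} (s : Finset α) (f : α → PtX M ι lam r n m) (c : Cfg M ι lam r) :
    (∑ i ∈ s, f i).D c = ∑ i ∈ s, (f i).D c ∧ (∑ i ∈ s, f i).C c = ∑ i ∈ s, (f i).C c := by
  induction s using Finset.cons_induction with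
  | empty => exact ⟨rfl, rfl⟩
  | cons a s h ih => simp only [Finset.sum_cons, PtX.add_D, PtX.add_C, ih, and_self]

variable (θ) in
/-- twisting is linear -/
def twL : PtX M ι lam r n m →ₗ[ℝ] PtX M ι lam r n m where
  toFun := twP θ
  map_add' _ _ := PtX.eqv.injective (funext fun c => Prod.ext (funext fun _ =>
    map_add (csL c.m.J _) _ _) rfl)
  map_smul' _ _ := PtX.eqv.injective (funext fun c => Prod.ext (funext fun _ =>
    map_smul (csL c.m.J _) _ _) rfl)

theorem twP_zero (h : ∀ x, θ x = 0) : twP θ p = p := by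
  refine PtX.eqv.injective (funext fun c => ?_)
  obtain rfl : θ = fun _ => 0 := funext h
  have e : ∀ x, cs c.m.J (Circle.exp 0) (c.Φ x) = c.Φ x := fun x => by simp
  have k : ∀ Φ, Φ = c.Φ → PtX.eqv p ⟨c.m, c.W, Φ, c.z⟩ = PtX.eqv p c := by rintro _ rfl; rfl
  refine Eq.trans (b := PtX.eqv p (rot (fun _ => 0) c)) (Prod.ext (funext fun x => ?_) rfl)
    (k _ (funext e))
  show cs c.m.J (Circle.exp (-0)) (p.D (rot (fun _ => 0) c) x) = p.D (rot (fun _ => 0) c) x
  rw [neg_zero, Circle.exp_zero, Circle.coe_one, cs_one]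

theorem zr_twP (hJ : c.m.J * c.m.J = -1) : (twP θ p).Zr c O O' ↔ p.Zr (rot θ c) O O' :=
  ⟨fun h => ⟨fun x hx => by
    have := congrArg (cs c.m.J (Circle.exp (θ x))) (h.D x hx)
    simp only [twP] at this
    rwa [cs_cs hJ, ← Circle.exp_add, add_neg_cancel, Circle.exp_zero, Circle.coe_one, cs_one,
      cs_zero] at this, h.C, h.S, h.R⟩,
    fun h => ⟨fun x hx => by simp only [twP]; rw [h.D x hx, cs_zero], h.C, h.S, h.R⟩⟩

end tw

variable {κ lam : Type} [Fintype κ] [Fintype lam] {Y : Mf 3} [CompactSpace Y.M]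
  {N : ND Y.M lam} {D : YD Y.I Y.M κ lam}

theorem sm_ang (t : ℝ) : Sm (IC Y.I) (ang (Y := Y) t) :=
  sm_snd (f := fun s => t * hc 1 0 s) (contDiff_const.mul (Real.smoothTransition.contDiff.comp
    (f := fun s : ℝ => 1 * s - 0) (by fun_prop)))

theorem ang_zero (x : Y.M × ℝ) : ang 0 x = 0 := zero_mul _

theorem ang_bot (t : ℝ) {x : Y.M × ℝ} (h : x.2 ≤ 0) : ang t x = 0 := by
  rw [ang, hc_zero (by linarith), mul_zero]

theorem ang_top (t : ℝ) {x : Y.M × ℝ} (h : 1 ≤ x.2) : ang t x = t := by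
  rw [ang, hc_one (by linarith), mul_one]

theorem ang_add (s t : ℝ) : ang (Y := Y) (s + t) = ang s + ang t := funext fun _ => add_mul _ _ _

theorem ang_neg (t : ℝ) : ang (Y := Y) (-t) = -ang t := funext fun _ => neg_mul _ _

/-- a rotation by a constant angle changes the phase -/
theorem cls_rot {r : ℕ} {c : Cfg (Y.M × ℝ) (Option κ) lam r} {β : YC Y.M κ lam}
    {u : Y.M × ℝ → CL c.m.V β.m.V} {ζ : Circle} {S : Set ℝ} {k : ℕ} {η a : ℝ} {θ : Y.M × ℝ → ℝ}
    (hJ : β.m.J * β.m.J = -1) (hθ : ∀ x ∈ univ ×ˢ S, θ x = a) (H : D.Cls c β u ζ S k η) :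
    D.Cls (rot θ c) β u (ζ * Circle.exp (-a)) S k η :=
  ⟨H.op, H.m, H.A, fun w hw x hx => by
    rw [Prm93.Dw_congr (v := YD.dP c β u ζ) w (((isOpen_univ.prod H.op).eventually_mem hx).mono
      fun z hz => ?_)]
    · exact H.P w hw x hx
    · simp only [YD.dP]
      rw [map_cs (H.m.J z hz), hθ z hz]
      erw [cs_cs hJ]
      rw [mul_assoc, ← Circle.exp_add, neg_add_cancel, Circle.exp_zero, mul_one]⟩

theorem eQ_eq (q : YW Y.I Y.M →₀ ℝ) : eQ N D q = eZ N D + q.sum fun w c =>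
    c • (-⟨N.q2 D.nk w.1, fun _ => 0⟩ : PtX (Y.M × ℝ) (Option κ) lam 0 0 0) := by
  refine PtX.eqv.injective (funext fun c => ?_)
  obtain ⟨h1, h2⟩ := sum_ev q.support (fun w =>
    q w • (-⟨N.q2 D.nk w.1, fun _ => 0⟩ : PtX (Y.M × ℝ) (Option κ) lam 0 0 0)) c
  refine Prod.ext (funext fun x => ?_) (Prod.ext (funext fun x => ?_) (Subsingleton.elim _ _))
  all_goals
    simp only [PtX.eqv, Equiv.coe_fn_mk, eQ, eZ, Finsupp.sum, PtX.add_D, PtX.add_C, PtX.sub_D,
      PtX.sub_C, h1, h2, ND.pt, Pt.add, fsum, Pi.add_apply, Pi.sub_apply, Finset.sum_apply,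
      sub_add_eq_sub_sub]
    rw [sub_eq_add_neg, ← Finset.sum_neg_distrib]
    exact congrArg₂ _ rfl (Finset.sum_congr rfl fun _ _ => (smul_neg _ _).symm)

theorem tot_eq (q : YW Y.I Y.M →₀ ℝ) : (eT N D + q.sum fun w c => c • τT N D w) =
    fun t => twP (ang t) (eQ N D q) := funext fun t => by
  rw [eQ_eq]
  refine Eq.trans ?_ (map_add (twL (ang t)) _ _).symm
  rw [Finsupp.sum, Finsupp.sum, map_sum, Pi.add_apply, Finset.sum_apply]
  simp only [map_smul]
  rfl

end Crest.Agent.X212.Msi61
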