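import Crest.Agent.X212.Msi61.Defs

/-!
# Row 212, MS-INST (helper61): small leaves
-/

set_option autoImplicit false
set_option linter.unusedSectionVars false
noncomputable section
open scoped Manifold ContDiff Topology InnerProductSpace
open MeasureTheory Set Function Filter

namespace Crest.Agent.X212.Msi61
open An M Cyf70 Mod61 Map77 Nk89 Nd18 Eqv71

variable {κ lam : Type} [Fintype κ] [Fintype lam] {Y : Mf 3} [CompactSpace Y.M]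
  (N : ND Y.M lam) (D : YD Y.I Y.M κ lam)

/-- LEAF MS-TRN: small translates converge strongly -/
def TrnL : Prop := ∀ d > 0, ∀ (c : Cfg (Y.M × ℝ) (Option κ) lam 0) β β' ζ ζ', D.OK → D.Adm β →
  D.Adm β' → c.Adm D.B D.G → D.nk.ELim d c β ζ atBot → D.nk.ELim d c β' ζ' atTop →
  ∀ (α : Type) (l : Filter α) (s : α → ℝ), Tendsto s l (𝓝 0) → Stg D d l (fun m => sh (s m) c) c β β'

/-- LEAF MS-PER: periodic configurations with a limit do not move -/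
def PerL : Prop := ∀ (c : Cfg (Y.M × ℝ) (Option κ) lam 0) β ζ s u η, D.OK → D.Adm β →
  c.Adm D.B D.G → D.nk.Lim c β ζ atTop → s ≠ 0 → Mod61.EqOn D.B D.Z univ (sh s c) c u η →
  ¬D.Moves c

variable {D} in
/-- `y` represents `c` after the twist -/
def Rt {δ : ℝ} {O' : Set (Y.M × ℝ)} {o : Ref (famZ ℝ D δ O')} (c : Cfg (Y.M × ℝ) (Option κ) lam 0)
    (y : Pnt o 0) : Prop := ∃ u ζ, Mod61.EqOn D.B D.Z univ c (rot (ang y.t) y.cfg) u ζ

/-- LEAF MS-NEAR: strong convergence gives convergence in a twisted chart -/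
def NearL (δ : ℝ) : Prop := ∀ (h : Wd (D := D) N δ) b (o : Ref (famZ ℝ D δ (spO b univ))) [o.B0]
  (R d : ℝ) (β : Bool → YC Y.M κ lam) (y₀ : Pnt o 0) (α : Type) (𝒰 : Ultrafilter α)
  (c : α → Cfg (Y.M × ℝ) (Option κ) lam 0) c₀, (h.X b).Lit o R → δ < d → (∀ a, D.Adm (β a)) →
  (∀ a t, D.Eqv (β a) (((h.X b).P a).sl o (R + 1) t)) → Adm0 c₀ D.B D.G → Rt c₀ y₀ →
  (∀ᶠ i in (𝒰 : Filter α), Adm0 (c i) D.B D.G ∧ ∀ x ∉ spO b univ, (c i).Φ x = 0) →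
  Stg D d 𝒰 c c₀ (β false) (β true) → ∀ k, 7 ≤ k →
  ∃ (y : α → Pnt o 0) (y₁ : Pnt o 0) (w : Y.M × ℝ → CL o.m.V o.m.V), y₁.t = y₀.t ∧ AlE o w 1 ∧
    y₀.Eq y₁ w 1 ∧ Tendsto (fun i => (y i).pt k) 𝒰 (𝓝 (y₁.pt k)) ∧
    ∀ᶠ i in (𝒰 : Filter α), Rt (c i) (y i)

/-- LEAF MS-SMT: the second half of `AffL` -/
def SmL (δ : ℝ) : Prop := ∀ (h : Wd (D := D) N δ) b (o : Ref (famZ ℝ D δ (spO b univ))) [o.B0] R,
  (h.X b).Lit o R → ∀ w, o.Sm (τT N D w)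

/-- LEAF MS-AFT: the first half of `AffL` -/
def AfL (δ : ℝ) : Prop := ∀ (h : Wd (D := D) N δ) b (o : Ref (famZ ℝ D δ (spO b univ))) [o.B0] R
  q (y : Pnt o 0), (h.X b).Lit o R → y.t = 0 → (eQ N D q).Zr y.cfg univ (spO b univ) →
  Aff o (Fs (famZ ℝ D δ (spO b univ))) 0 0 0 (eT N D)

theorem affL_of {δ : ℝ} (h1 : AfL N D δ) (h2 : SmL N D δ) : AffL N D δ :=
  fun h b o _ R q y l a e => ⟨h1 h b o R q y l a e, h2 h b o R l⟩

end Crest.Agent.X212.Msi61
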