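import Crest.Agent.X212.Msi61.Main
import Crest.Agent.X212.Nd18.Fk
import Crest.Agent.X212.Aps75.Main
import Crest.Agent.X212.Smt39.Aft
import Crest.Agent.X212.Ax1.Lc
import Crest.Agent.X212.Dec35.Jp
import Crest.Agent.X212.Msc43.Main
import Crest.Agent.X212.Cmp73.Zq
import Crest.Agent.X212.Loc66.Kt

/-!
# Row 212, MS (helper61): the plug
-/

set_option autoImplicit false
noncomputable section

namespace Crest.Agent.X212.Msi61
open An M Nd18

/-- **LEAF MS** -/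
theorem msStmt {κ lam : Type} [Fintype κ] [Fintype lam] [DecidableEq lam] (L : IxL κ (lam ⊕ lam) 8)
    (hL : Ax1.Fr.LocE κ (lam ⊕ lam)) (hR : Dec35.Rsp κ (lam ⊕ lam)) : Fk18.MsStmt κ lam :=
  fun y P _ h hI hS => by
    have := (y.M.bn y.a).con
    have hX : (XD.mk (yY y) (yD y) P.N).OK := ⟨(y.N.cy_ok y.a).yd, h.N, this⟩
    obtain ⟨l, δ₀, p, -, A⟩ := Aps75.aps P.H P.N P.C (h.k ▸ L) h.H hX
    have ip := hR.ipt hX.ok h.N P.C
    have el : ElS P.C := Dec35.elS hX.ok h.N P.C ip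
    exact ms P.H P.C hX (by rw [h.k]; norm_num) l ⟨δ₀, p, A⟩ (fun δ => Smt39.afL _ δ _)
      (fun δ d => h.k ▸ Ax1.Lc.locL hL d) el (Msc43.cmpS _ _ hX (fun _ _ _ _ k => Cmp73.NF.OK.cz Loc66.kt k) el
        fun i => ⟨(ip i).p1, (ip i).lz, Dec35.asg (P.C.crit i) (ip i)⟩) hI hS

end Crest.Agent.X212.Msi61
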