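import Crest.Agent.X212.Msi61.Rc0
import Crest.Agent.X212.Nr55.Rfl
import Crest.Agent.X212.Hp13.Rcj

/-!
# Row 212, NT-R (helper61): the leaf RC from the words
-/

set_option autoImplicit false
set_option linter.unusedSectionVars false
noncomputable section
open scoped Manifold ContDiff Topology InnerProductSpace
open MeasureTheory Set Function Filter

namespace Crest.Agent.X212.Msi61.Rc
open An M Nd18 Mod61 Nk89 Cht98 Rf65 Pte3 Qab60 Nr41 G75 Ins26 Jb7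
open Wrd81 (Tf wg)
open Hp13.Rcj (cb_W cb_a p1_a)

variable {κ lam : Type} [Fintype κ] [Fintype lam] [DecidableEq lam] {Lm : LM κ lam}
  {S : Scene Lm} {D : S.Dat} {i : S.L} {Wi : Type} {r n : ℕ}
  {J : Job Wi (D.Λ i) (S.A ⊕ Unit) S.ls r n} {c : S.M.Cl} {δ : ℝ} {σ : Cel (S.A ⊕ Unit)} {R : S.A}
  {b : Bp J c} {E : ER σ R b δ} {q : Wi →₀ ℝ} {y : J.Obc c} {x : Pnt E.o r} {ψ : E.K}
  {ξ : (D.W.Z c).M → E.o.m.A} (C : Cr q y x ψ ξ) (f : E.C → E.Y)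

/-- the normal derivatives of the words are hit -/
def Hit : Prop := Stk σ q y x ψ f → ∀ α ∈ HA C, ∀ η, Ld f x ψ (va E α η) = 0 → ∀ g g',
  Tf (D.W.Z c).I (oI D.W c R) g → Tf (D.W.Z c).I (oI D.W c R) g' → ∀ d,
  Nt92.ND (D.W.Z c).I E.o.m (J.G c y.s).F x.cfg.W (fa E x.t α) (oI D.W c R) d →
  ∃ e ∈ range (Ld f x ψ), Tg ∅ (oI D.W c R) ∅ e ∧ ∀ z ∈ oI D.W c R,
    vC e z = E.o.m.p2 (J.B c) z (wg (J.G c y.s).F E.o.m.A g g' z (d z))

include C in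
theorem dir {α} (hα : α ∈ HA C) : Nt92.Dir (J.B c) (J.G c y.s) x.cfg.W (fa E x.t α) := by
  have F := C.cs.F
  have a := Nr55.ha_hs C hα
  have a1 : (J.G c (b.θ _ _ x.t)).OK (J.B c) := F.G _ x.ht
  have a2 : ∃ C, (J.G c (b.θ _ _ x.t)).F.Tame C := F.tameG _ x.ht
  have a3 : ∀ a, (J.G c (b.θ _ _ x.t)).F.Cb (x.cfg.W a) := cb_W F x
  have a5 : (J.G c (b.θ _ _ x.t)).F.Cb _ := cb_a F x a
  rw [C.θ] at a1 a2 a3 a5
  exact ⟨F.B, a1, C.ins.ab.adm.ok, C.ins.ab.adm.conn, a2, a3, a5, p1_a F x a⟩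

include C in
theorem tg_eq {O} {e : E.Y} (k : Tg ∅ O ∅ e) : ((0, e.1.2.1, 0), 0) = e :=
  Prod.ext (Prod.ext (Sob92.val_injective C.cs.F.sup (by norm_num) (Sob92.val_zero.trans
    (funext fun z => (k.D z id).symm))) (Prod.ext rfl k.S.symm))
    (Prod.ext (funext fun i => (k.T i id).1.symm) (funext fun i => (k.T i id).2.symm))

theorem tg_of {O} {e : (FW σ R b δ).F0.H 8 E.o.P2} (k : ∀ z ∉ O, (FW σ R b δ).F0.val 8 E.o.P2 e z = 0) :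
    Tg (E := E) ∅ O ∅ ((0, e, 0), 0) :=
  ⟨fun z _ => congrFun Sob92.val_zero z, k, rfl, fun _ _ => ⟨rfl, rfl⟩⟩

variable {f} in
theorem rc_at (H : Hit C f) : RchC C f := by
  intro st ha α η K e he
  let L : (FW σ R b δ).F0.H 8 E.o.P2 →L[ℝ] E.Y := .inl ℝ _ _ ∘L .inr ℝ _ _ ∘L .inl ℝ _ _
  let N := (Ld f x ψ).range.comap L.toLinearMap
  have n : ∀ e, e ∈ N ↔ ((0, e, 0), 0) ∈ range (Ld f x ψ) := fun _ => Iff.rfl
  have a : oI D.W c R ⊆ (FW σ R b δ).Om :=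
    Nr55.oI_eq.trans_subset (biUnion_subset_biUnion_left sub_in)
  have k := dens (G := J.G c y.s) (W := x.cfg.W) (Ω := oI D.W c R) (ξ := ξ) C.cs.F (k := 8)
    (by norm_num) (dir C K.mem) C.ins.ab.rd (Nr55.cl_in C)
    (Cyl58.isConnected_pc _ (C.cs.pok.pc _ (.inr rfl))).2 a C.ins.ne K.ng
    (N := N) (st.cl.preimage L.continuous)
  rw [← tg_eq C he, ← n]
  refine k (fun g g' hg hg' d hd => ?_) (fun g h1 h2 h3 h4 e k => ?_) _ he.C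
  · obtain ⟨e, e1, e2, e3⟩ := H st α K.mem η K.eq g g' hg hg' d hd
    exact ⟨e.1.2.1, (n _).2 (mem_of_eq_of_mem (tg_eq C e2) e1), e2.C, e3⟩
  · exact (n _).2 (ha g h1 h2 h3 h4 _ (tg_of fun z hz => (k z).trans
      ((congrArg (tn (g z)) (show ξ z = 0 from C.ins.ab.rd.off z hz)).trans (tn_zero _))) k)

omit C in
variable (Lm) in
/-- **LEAF RC** from the words -/
theorem rchC (H : All Lm Hit) : All Lm RchC := fun S D i Wi r n J c h1 h2 =>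
  let ⟨δ, h3, h4⟩ := H S D i Wi r n J c h1 h2
  ⟨δ, h3, fun _ k _ _ _ _ _ _ _ _ _ C _ hf => rc_at C (h4 _ k _ _ _ _ _ _ _ _ _ C _ hf)⟩

end Crest.Agent.X212.Msi61.Rc
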