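import Crest.Agent.X212.Msi61.Ch
import Crest.Agent.X212.Ker54.Main
import Crest.Agent.X212.Trn40.Main
import Crest.Agent.X212.Nr74.Near

/-!
# Row 212, MS-TRANS (helper61): regular moving trajectories have non-negative index
-/

set_option autoImplicit false
set_option linter.unusedSectionVars false
noncomputable section
open scoped Manifold ContDiff Topology InnerProductSpace
open MeasureTheory Set Function Filter

namespace Crest.Agent.X212.Msi61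
open An M Cyf70 Mod61 Map77 Nk89 Nd18 Eqv71 Sob92 Prm93

variable {κ lam : Type} [Fintype κ] [Fintype lam] {Y : Mf 3} [CompactSpace Y.M]
  {N : ND Y.M lam} {D : YD Y.I Y.M κ lam} {δ d : ℝ} {b : Bool} {h : Wd (D := D) N δ}
  {q : YW Y.I Y.M →₀ ℝ} {c : Cfg (Y.M × ℝ) (Option κ) lam 0} {S : N.CD D} {k : ℕ} {i j : S.C}

theorem adm_β (i : S.C) : D.Adm (S.β i) := ⟨(S.crit i).sol.toAdm, (S.crit i).tmp⟩

theorem zr_ty (hT : S.Typ q) {ζ ζ'} (H : N.Traj D q c (S.β i) (S.β j) ζ ζ') (t : S.Ty c b) :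
    b = true ∨ D.Zr (S.β i) ∧ D.Zr (S.β j) := by
  cases b
  · obtain ⟨-, -, k1, k2⟩ := hT i j c ζ ζ' H (ND.CD.zr_fix t)
    exact .inr ⟨k1.2 t, k2.2 t⟩
  · exact .inl rfl

namespace Ch

/-- translations: a regular moving solution has positive index -/
theorem pos (C : Ch h S k i j b) (hk : 7 ≤ k) (hd : δ < d) (hE : ElL S d q) {ζ ζ'}
    (H : N.Traj D q c (S.β i) (S.β j) ζ ζ') (hm : D.Moves c) (h0 : ∀ s, ∀ x ∉ spO b univ, (sh s c).Φ x = 0)
    {y : Pnt C.o 0} (r : Rt c y) (g : (C.Q hk).Reg q ⟨(), y⟩) : 0 ≤ C.d := by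
  have a := H.sol.toAdm
  have z : ∀ x ∉ spO b univ, c.Φ x = 0 := fun x hx =>
    (congrArg (fun s => c.Φ (x.1, s)) (add_zero x.2).symm).trans (h0 0 x hx)
  have n0 : ∀ {V : Type} [NormedAddCommGroup V] [NormedSpace ℝ V] {u : Y.M × ℝ → V}, (∀ x, u x = 0) →
      Grp76.Nice (famZ ℝ D δ (spO b univ)).F0.toPre u := fun {_ _ _ u} e => by
    rw [show u = fun _ => 0 from funext e]
    exact .of_hcs contMDiff_const HasCompactSupport.zero
  obtain ⟨k1, k2⟩ := Ker54.ker' (o := C.o) (h.X b).ok (h.X b).hdy 0 0 0 k hk _ _ _ _ _ _ (C.ok hk fun _ => True)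
    h.ne h.nτ q y trivial (C.sol hk H.sol z r) g T0 0 0 ⟨fun _ => ⟨Cb_const _, fun _ => map_zero _,
      fun _ => n0 fun x => by simp [Wz78.nab, dv_zero], n0 fun x => by simp⟩,
      fun _ _ _ _ _ _ => Subsingleton.elim _ _⟩
  simp only [Module.finrank_self, Module.finrank_fin_fun] at k1 k2
  by_contra n
  obtain ⟨k3, -⟩ := k2 (by omega)
  obtain ⟨e1, e2⟩ := hE i j c ζ ζ' H
  let 𝒰 : Ultrafilter ℝ := .of (𝓝[≠] 0)
  have u : (𝒰 : Filter ℝ) ≤ 𝓝[≠] 0 := Ultrafilter.of_le _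
  obtain ⟨y', k4, k5⟩ := C.near hk (Nr74.nearL N D δ) hd (𝒰 := 𝒰) (ad0 a) r
    (.of_forall fun s => ⟨(ad0_sh (ad0 a) s).adm0, h0 s⟩)
    (Trn40.trn D d (h.d0.trans hd) c _ _ ζ ζ' h.ok.ok (adm_β i) (adm_β j) a e1 e2 ℝ 𝒰 id
      (u.trans nhdsWithin_le_nhds))
  obtain ⟨s, ⟨k6, k7⟩, s0⟩ := ((k4.and (k5.eventually k3)).and (u self_mem_nhdsWithin)).exists
  obtain ⟨t, w, η, e⟩ := k7 (C.sol hk ((h.okZ.pt h.ok.nd q).sol_sh h.okZ H.sol s) (h0 s) k6)
  have ⟨B, G⟩ := h.ok.ok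
  have e' : IsoOn D.B D.Z univ (rot (ang y.t) y.cfg) (rot (ang (y' s).t) (y' s).cfg) := by
    rw [show (y' s).t = y.t from t]
    exact ⟨w, η, eqOn_rot C.o.ok.Jsq e⟩
  obtain ⟨v, ξ, e3⟩ := IsoOn.trans B G isOpen_univ (ad0_sh (ad0 a) s) (h.adR _) (ad0 a) k6
    (IsoOn.symm B G isOpen_univ (ad0 a) (h.adR _) (.trans B G isOpen_univ (ad0 a) (h.adR y) (h.adR _) r e'))
  exact Trn40.perL D c _ ζ' s v ξ h.ok.ok (adm_β j) a H.top s0 e3 hm

/-- the index of the base point -/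
theorem ix (C : Ch h S k i j b) (t : ℝ) : (XD.mk Y D N).bg.Ix (spO b univ)
    (noz (pt0 C.o 0 (t := t) trivial).cfg) k δ C.d := by
  let g : (XD.mk Y D N).bg.GR (spO b univ) δ :=
    { T := ℝ
      𝔉 := famZ ℝ D δ (spO b univ)
      X := h.X b
      t := t
      ht := trivial
      f := (Equiv.subtypeUnivEquiv fun _ => subset_univ _).symm
      K := fun _ => D.nk
      hB := rfl
      hG := rfl
      hO := rfl
      hO' := rfl
      hP := fun _ => rfl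
      hψ := fun _ => ⟨0, fun _ _ => rfl⟩ }
  refine ⟨g, C.o, C.R, 0, 0, 0, _, ⟨C.lit, C.aff.tot (h.X b).ok C.sm 0, C.loc 0 t⟩, ?_, C.idx 0 _⟩
  rw [show (spO b univ).indicator (noz (pt0 C.o 0 (t := t) trivial).cfg).Φ = _ from
    indicator_eq_self.2 fun x hx => by_contra fun k => hx ((pt0 C.o 0 trivial).off (h.X b).ok x k)]
  exact ⟨_, _, ceq_refl h.ok.ok.B h.ok.ok.G (ad0 (ad0_noz (h.ad _))) isOpen_univ⟩

/-- the index of a chart -/
theorem d_eq {H : Hd D} (C : Ch h S H.k i j b) (A : H.Aps S δ)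
    (hb : b = true ∨ D.Zr (S.β i) ∧ D.Zr (S.β j)) (a : Ad0 c D.B D.G) {y : Pnt C.o 0} (r : Rt c y)
    {n : ℤ} (l : c.kap D.B D.G = (H.gr S).k j - (H.gr S).k i + n) : C.d = S.ix (H.gr S) i j n b := by
  have e := A.path b _ i j _ (h.std C.lit (fun a => by cases a <;> exact adm_β _) y.t
    fun a => by cases a; exacts [C.eqv false _, C.eqv true _]) hb (C.ix y.t)
  rw [show (noz (pt0 C.o 0 (t := y.t) trivial).cfg).kap D.B D.G = _ from h.kap C.lit a r, l] at e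
  refine Int.cast_injective (α := ℝ) (e.trans ?_)
  cases b
  · simp only [Hd.ep, Gr.ηA, nz, ND.CD.ix, cond_false]
    push_cast; simp; ring
  · simp only [Hd.ep, Gr.η, nz, ND.CD.ix, cond_true, ND.CD.fx]
    by_cases f : D.Fx (S.β i) <;> simp [f] <;> ring

end Ch

/-- **MS-TRANS** -/
theorem ker {H : Hd D} (hk : 7 ≤ H.k) (A : H.Aps S δ) (hd : δ < d) (hE : ElL S d q) (hT : S.Typ q)
    {n : ℤ} (C : Ch h S H.k i j b) {x : (C.Q hk).X} (m : S.Mv (H.gr S) q i j n c) (t : S.Ty c b)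
    (r : (msR h S hk).rep C c x) (g : (C.Q hk).Reg q x) : 0 ≤ S.ix (H.gr S) i j n b := by
  obtain ⟨s, r⟩ := r
  obtain ⟨ζ, ζ', T⟩ := m.tr
  have a := ad0 T.sol.toAdm
  rw [← C.d_eq A (zr_ty hT T t) (ad0_sh a s) r ((h.okZ.kap_sh a s).trans m.lev)]
  exact C.pos hk hd hE (traj_sh h.okZ h.ok.nd (adm_β i) (adm_β j) T s) ((h.okZ.moves_sh a s).2 m.mv)
    (fun s' => by cases b; exacts [fun _ _ => t _ trivial, fun _ k => (k trivial).elim]) r g

end Crest.Agent.X212.Msi61
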