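import Crest.Agent.X212.St29.Id
import Crest.Agent.X212.Loc8.Sc
import Crest.Agent.X212.Rod53.Unk

/-!
# Row 212, LIX-CY (helper61): flat connections on quotients of `S³` by `μ₄` have a parallel section
-/

set_option autoImplicit false
set_option linter.unusedSectionVars false
noncomputable section
open scoped Manifold ContDiff Topology InnerProductSpace
open Set Function Filter

namespace Crest.Agent.X212.Msi61.Lc
open An Nd18 Wz78 Cyf70 Dfl49 Clr59
open Rdc90 (Bs A0)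
open Rf65 (ParY dz)
open Rod53 (S3' L4 sphD rot)

/-- pull-back of a local system -/
theorem comap {Z X F : Type} [TopologicalSpace Z] [TopologicalSpace X] {Gd : X → (X → F) → Prop}
    (h : LS univ Gd) {f : Z → X} (hf : Continuous f) :
    LS univ fun z (t : Z → F) => ∃ s, Gd (f z) s ∧ t =ᶠ[𝓝 z] s ∘ f := by
  refine ⟨fun z t t' ⟨s, g, e⟩ e' => ⟨s, g, e'.trans e⟩,
    fun z _ t t' ⟨s, g, e⟩ ⟨s', g', e'⟩ fr => ?_, fun z _ => ?_⟩
  · have := h.idn _ trivial _ _ g g' ((hf.tendsto z).frequently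
      (fr.mp ((e.and e').mono fun y k q => k.1.symm.trans (q.trans k.2))))
    exact (e.trans (this.comp_tendsto (hf.tendsto z))).trans e'.symm
  · obtain ⟨W, hW, hl⟩ := h.loc (f z) trivial
    exact ⟨f ⁻¹' W, hf.continuousAt hW, fun y hy t ⟨s, g, e⟩ =>
      let ⟨s', a, b⟩ := hl _ hy s g
      ⟨s' ∘ f, fun w hw => ⟨s', a _ hw, .rfl⟩, b.trans e.eq_of_nhds.symm⟩⟩

/-- an automorphism of order four has a fixed vector -/
theorem fixed {Z V : Type} [AddCommGroup V] [Module ℝ V] (P : Submodule ℝ (Z → V)) {τ : Z → Z}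
    {b : V → V → V} {z₀ : Z} (b1 : ∀ x y, b x (-y) = b y x) (b2 : ∀ x y, b (-x) (-y) = b x y)
    (h4 : ∀ z, τ (τ (τ (τ z))) = z) (hτ : ∀ t ∈ P, t ∘ τ ∈ P)
    (hb : ∀ t ∈ P, ∀ t' ∈ P, (fun z => b (t z) (t' z)) ∈ P) (inj : ∀ t ∈ P, t z₀ = 0 → t = 0)
    (par : ∀ t ∈ P, ∀ t' ∈ P, b (t z₀) (t' z₀) = 0 → t z₀ ≠ 0 → ∃ c : ℝ, t' z₀ = c • t z₀)
    (na : ∃ t ∈ P, ∃ t' ∈ P, b (t z₀) (t' z₀) ≠ 0) : ∃ t ∈ P, t ≠ 0 ∧ t ∘ τ = t := by
  by_contra! H
  replace H : ∀ t ∈ P, (∀ z, t (τ z) = t z) → t = 0 := fun t h e =>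
    by_contra fun n => H t h n (funext e)
  have s1 : ∀ t ∈ P, ∀ z, t (τ (τ z)) = t z := fun t h => by
    obtain ⟨a, ha, e⟩ : ∃ a ∈ P, ∀ z, a z = t z - t (τ (τ z)) :=
      ⟨_, P.sub_mem h (hτ _ (hτ _ h)), fun _ => rfl⟩
    have k : ∀ z, a (τ (τ z)) = -a z := fun z => by rw [e, e, h4, neg_sub]
    suffices a z₀ = 0 from fun z => (sub_eq_zero.1 ((e z).symm.trans (congrFun (inj a ha this) z))).symm
    by_contra n
    obtain ⟨r, hr⟩ := par a ha _ (hτ a ha) (congrFun (H _ (hb a ha _ (hτ a ha)) fun z => by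
      simp only [comp_apply, k, b1]) z₀) n
    have u := congrFun (inj _ (P.sub_mem (hτ a ha) (P.smul_mem r ha)) (sub_eq_zero.2 hr)) (τ z₀)
    simp only [Pi.sub_apply, comp_apply, Pi.smul_apply, Pi.zero_apply, k] at u hr
    rw [hr, smul_smul, ← neg_add', neg_eq_zero, ← one_smul ℝ (a z₀), smul_smul, ← add_smul,
      smul_eq_zero] at u
    exact n (u.resolve_left (by nlinarith [mul_self_nonneg r]))
  have s2 : ∀ t ∈ P, ∀ z, t (τ z) = -t z := fun t h z =>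
    eq_neg_of_add_eq_zero_right (congrFun (H _ (P.add_mem h (hτ _ h)) fun z => by
      simp only [Pi.add_apply, comp_apply, s1 t h, add_comm]) z)
  obtain ⟨t, h, t', h', n⟩ := na
  exact n (congrFun (H _ (hb t h t' h') fun z => by rw [s2 t h, s2 t' h', b2]) z₀)

section pa
variable {E : Type} [NormedAddCommGroup E] [NormedSpace ℝ E] [FiniteDimensional ℝ E]
  [MeasurableSpace E] [BorelSpace E]
  {HM : Type} [TopologicalSpace HM] {I : ModelWithCorners ℝ E HM} [I.Boundaryless]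
  {M : Type} [TopologicalSpace M] [ChartedSpace HM M] [IsManifold I ∞ M] [MeasurableSpace M]
  {ι : Type} [Fintype ι] {lam : Type} [Fintype lam] {F : Fr I M ι} {m : Md M ι lam} {W : m.Cn}
  {s s' : M → m.A} {x : M}

theorem pa_mem (h : PA F (m.adW W) m.pg s x) : s x ∈ m.gS x := h.mem ▸ pg_mem x _

theorem pa_br (h : PA F (m.adW W) m.pg s x) (h' : PA F (m.adW W) m.pg s' x) :
    PA F (m.adW W) m.pg (fun y => adc (opL (s y)) (s' y)) x := by
  have k : SA I (fun y => adc (opL (s y))) x := SA.clm (adcL.comp opL) h.sm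
  refine ⟨SA.app k h'.sm, pg_of_mem (adc_mem (pa_mem h) (pa_mem h')), fun a => ?_⟩
  have := nab_map (I := I) (e := F.e) (A := m.adW W) (A' := fun a y => ad _ (m.adW W a y))
    (adcL.comp opL) a (by rw [ad_apply, ContinuousLinearMap.comp_apply,
      ContinuousLinearMap.comp_apply, adcL_apply, adcL_apply, Md.adW, opL_adc, adc_lie]) h.sm
  rw [h.par, map_zero] at this
  rw [nab_app' a k h'.sm, h'.par, map_zero, add_zero]
  exact congrArg (fun T : En (Fin m.N × Fin m.N) => T (s' x)) this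

variable (F W) in
/-- the parallel sections along `f` -/
def sec {Z : Type} [TopologicalSpace Z] (f : Z → M) : Submodule ℝ (Z → m.A) where
  carrier := {t | ∀ z, ∃ s, (∀ᶠ y in 𝓝 (f z), PA F (m.adW W) m.pg s y) ∧ t =ᶠ[𝓝 z] s ∘ f}
  zero_mem' z := ⟨0, .of_forall fun _ => ⟨contMDiffAt_const, map_zero _, fun _ => by simp [nab]⟩, .rfl⟩
  add_mem' h h' z :=
    let ⟨s, a, e⟩ := h z
    let ⟨s', a', e'⟩ := h' z
    ⟨fun y => s y + s' y, (a.and a').mono fun _ k => ⟨k.1.sm.add k.2.sm,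
      by rw [map_add, k.1.mem, k.2.mem], fun i => by
        rw [nab_add i k.1.sm k.2.sm, k.1.par, k.2.par, add_zero]⟩, e.add e'⟩
  smul_mem' r _ h z :=
    let ⟨s, a, e⟩ := h z
    ⟨fun y => r • s y, a.mono fun _ k => ⟨SA.smul contMDiffAt_const k.sm,
      by rw [map_smul, k.mem], fun i => by rw [nab_csmul i r k.sm, k.par, smul_zero]⟩, e.const_smul r⟩

end pa

/-- the generator of the deck group -/
def τ : S3' → S3' := sphD (n := 3) (rot ⟨Complex.I, by simp [Submonoid.unitSphere]⟩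
  ⟨Complex.I, by simp [Submonoid.unitSphere]⟩)

theorem cτ : Continuous τ := (sphD (n := 3) _).continuous

theorem L4_τ (y : S3') : L4 (τ y) = Complex.I • L4 y := Rod53.L4_rot _ _ _

theorem τ4 (y : S3') : τ (τ (τ (τ y))) = y := Rod53.sph_ext (by
  simp only [L4_τ, smul_smul, ← mul_assoc, Complex.I_mul_I]; simp)

theorem orb {F : Type} {t : S3' → F} (h : t ∘ τ = t) {y y' : S3'} {ζ : ℂ} (h4 : ζ ^ 4 = 1)
    (e : L4 y' = ζ • L4 y) : t y' = t y := by
  have k : ∀ y, t (τ y) = t y := congrFun h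
  have : (ζ - 1) * (ζ - Complex.I) * (ζ + 1) * (ζ + Complex.I) = 0 := by
    linear_combination h4 - (ζ ^ 2 - 1) * Complex.I_mul_I
  simp only [mul_eq_zero, sub_eq_zero, add_eq_zero_iff_eq_neg] at this
  rcases this with ((rfl | rfl) | rfl) | rfl
  · rw [Rod53.sph_ext (e.trans (one_smul _ _))]
  · rw [Rod53.sph_ext (e.trans (L4_τ y).symm), k]
  · rw [Rod53.sph_ext (y := y') (y' := τ (τ y)) (by rw [e, L4_τ, L4_τ, smul_smul, Complex.I_mul_I]), k, k]
  · rw [Rod53.sph_ext (y := y') (y' := τ (τ (τ y))) (by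
      rw [e, L4_τ, L4_τ, L4_τ, smul_smul, smul_smul, Complex.I_mul_I, neg_one_mul]), k, k, k]

variable {E3 : Type} [NormedAddCommGroup E3] [NormedSpace ℝ E3] [FiniteDimensional ℝ E3]
  [MeasurableSpace E3] [BorelSpace E3]
  {H3 : Type} [TopologicalSpace H3] {I3 : ModelWithCorners ℝ E3 H3} [I3.Boundaryless]
  {Y : Type} [TopologicalSpace Y] [ChartedSpace H3 Y] [IsManifold I3 ∞ Y] [T2Space Y]
  [MeasurableSpace Y] [BorelSpace Y] [SecondCountableTopology Y] [CompactSpace Y]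
  {κ : Type} [Fintype κ] {lam : Type} [Fintype lam] {D : YD I3 Y κ lam} {β : YC Y κ lam}

theorem flt (b : Bs D β) : Flt D.Z univ ((cy β).m.adW (cy β).W) (cy β).m.pg := by
  have A := b.adm.adm
  have cn := Eqv71.con_adW A.conn
  have s := Std94.sm_pg b.ok.B A.ok
  refine ⟨isOpen_univ, fun a x _ => cn.sm a x, fun a x _ => ?_, fun x _ => s x, fun a x _ => ?_,
    fun a c x _ => ?_⟩
  · exact cn.proj a x
  · exact (congrArg (· * _) (pg_par A.ok A.conn s a x)).trans (zero_mul _)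
  · ext1 w
    refine (curv_adW_g b.ok.B b.ok.G A.ok A.conn a c (pg_mem x w)).trans ?_
    rw [show (cy β).m.Fg D.G.F (cy β).W x = 0 from b.flat x]
    simp [adc_apply]

theorem par_loc {ξ : Y → β.m.A} (h : ∀ y, ∃ s : Y × ℝ → β.m.A,
    PA D.Z ((cy β).m.adW (cy β).W) (cy β).m.pg s (y, 0) ∧ ξ =ᶠ[𝓝 y] fun y => s (y, 0)) :
    ParY D β ξ := by
  refine ⟨fun y => ?_, fun y => ?_, fun k y => ?_⟩ <;> obtain ⟨s, a, c⟩ := h y <;>
    have sm : SA (IC I3) s (y, 0) := a.sm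
  · exact (ContMDiffAt.comp (g := s) y sm
      (contMDiffAt_id.prodMk contMDiffAt_const)).congr_of_eventuallyEq c
  · have k := pa_mem a
    rw [c.eq_of_nhds]
    exact k
  · rw [nab_congr k c]
    exact (congrArg (· + _) (D_some_at D.F.toPre sm.md k).symm).trans (a.par (some k))

/-- **a parallel section** -/
theorem exists_par {cv : S3' → Y} (ld : IsLocalHomeomorph cv) (sj : Surjective cv)
    (dk : ∀ y y', cv y = cv y' ↔ ∃ ζ : ℂ, ζ ^ 4 = 1 ∧ L4 y' = ζ • L4 y) (b : Bs D β) :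
    ∃ ξ, ParY D β ξ ∧ ξ ≠ 0 := by
  have := sj.connectedSpace ld.continuous
  let f : S3' → Y × ℝ := fun y => (cv y, 0)
  have hf : Continuous f := ld.continuous.prodMk continuous_const
  have L := comap (flt b).ls hf
  let P := sec D.Z (m := (cy β).m) (cy β).W f
  obtain ⟨z₀⟩ : Nonempty S3' := inferInstance
  have mem : ∀ t ∈ P, ∀ z, t z ∈ β.m.gS (cv z) := fun t h z => by
    obtain ⟨s, a, e⟩ := h z
    have k := pa_mem a.self_of_nhds
    rw [e.eq_of_nhds]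
    exact k
  have sur : ∀ v ∈ β.m.gS (cv z₀), ∃ t ∈ P, t z₀ = v := fun v hv => by
    have := Hz56.locConn (M := S3') (𝓡 3)
    obtain ⟨U, hU, -, -, hl⟩ := (flt b).exists_loc (mem_univ (f z₀))
    obtain ⟨σ, s1, s2⟩ := hl _ (mem_of_mem_nhds hU) v (pg_of_mem (m := (cy β).m) hv)
    obtain ⟨t, t1, t2⟩ := Loc8.sur_of_h1 isOpen_univ isPreconnected_univ
      (fun G _ => Hz56.h1_sphere (by simp)) (mem_univ z₀) _ _ L (σ ∘ f)
      (by rintro _ rfl; exact ⟨σ, mem_of_superset hU s2, .rfl⟩)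
    exact ⟨t, fun z => t1 z trivial, (t2 rfl).trans s1⟩
  have ct : ∀ z, cv (τ z) = cv z := fun z => ((dk _ _).2 ⟨_, Complex.I_pow_four, L4_τ z⟩).symm
  obtain ⟨t, ht, t0, tτ⟩ := fixed P (τ := τ) (b := fun x y => adc (opL x) y) (z₀ := z₀)
    (fun x y => by simp [adc_apply, neg_add_eq_sub]) (fun x y => by simp [adc_apply]) τ4
    (fun t h z => by
      obtain ⟨s, a, e⟩ := h (τ z)
      refine ⟨s, by simpa only [f, ct] using a, ?_⟩
      simpa only [comp_def, f, ct] using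
        e.comp_tendsto (cτ.tendsto z))
    (fun t h t' h' z =>
      let ⟨s, a, e⟩ := h z
      let ⟨s', a', e'⟩ := h' z
      ⟨_, (a.and a').mono fun _ k => pa_br k.1 k.2, (e.and e').mono fun _ k =>
        congrArg₂ (fun x y => adc (opL x) y) k.1 k.2⟩)
    (fun t h e => funext fun z => L.eqOn isPreconnected_univ Subset.rfl (fun z _ => h z)
      (fun z _ => P.zero_mem z) (mem_univ z₀) e trivial)
    (fun t h t' h' e n => by
      have k := Std94.adc_adc b.ok.B (Std94.pmx b.adm.adm.ok (f z₀)) (mem t h z₀) (mem t' h' z₀)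
      have k' : (1 / 4 : ℝ) • (⟪t z₀, t' z₀⟫_ℝ • t z₀ - ‖t z₀‖ ^ 2 • t' z₀) = 0 :=
        k.symm.trans ((congrArg (adc (opL (t z₀))) e).trans (map_zero _))
      rw [smul_eq_zero, sub_eq_zero] at k'
      refine ⟨(‖t z₀‖ ^ 2)⁻¹ * ⟪t z₀, t' z₀⟫_ℝ, ?_⟩
      rw [mul_smul, k'.resolve_left (by norm_num),
        inv_smul_smul₀ (pow_ne_zero 2 (norm_ne_zero_iff.2 n))])
    (by
      obtain ⟨v, v0⟩ : ∃ v : β.m.gS (cv z₀), v ≠ 0 :=
        (Module.finrank_pos_iff_exists_ne_zero (R := ℝ)).1 (by rw [St29.Id.g3 b]; norm_num)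
      obtain ⟨t, h, e⟩ := sur _ v.2
      by_contra! H
      refine v0 (Subtype.ext (St29.Id.cen b v.2 fun w hw => ?_))
      obtain ⟨t', h', e'⟩ := sur w hw
      exact e ▸ e' ▸ H t h t' h')
  have e : ∀ z, t (surjInv sj (cv z)) = t z := fun z =>
    let ⟨_, a, c⟩ := (dk z _).1 (surjInv_eq sj (cv z)).symm
    orb tτ a c
  exact ⟨fun y => t (surjInv sj y), par_loc (sj.forall.2 fun z =>
    let ⟨s, a, c⟩ := ht z
    ⟨s, a.self_of_nhds, ld.map_nhds_eq z ▸ c.mono fun w k => (e w).trans k⟩),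
    fun n => t0 (funext fun z => (e z).symm.trans (congrFun n _))⟩

theorem cy {cv : S3' → Y} (ld : IsLocalHomeomorph cv) (sj : Surjective cv)
    (dk : ∀ y y', cv y = cv y' ↔ ∃ ζ : ℂ, ζ ^ 4 = 1 ∧ L4 y' = ζ • L4 y) (b : Bs D β) :
    dz D β ≠ 0 ∧ ∃ ξ : Y → β.m.A, Abel74.Red D.Z (Nd18.cy β).m (Nd18.cy β).W fun q => ξ q.1 := by
  have := sj.connectedSpace ld.continuous
  obtain ⟨ξ, p, n⟩ := exists_par ld sj dk b
  refine ⟨fun h => n (St29.Id.dz0 b h p), ?_⟩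
  obtain ⟨y₀, h2⟩ := Function.ne_iff.1 n
  have h3 : ‖ξ y₀‖ ≠ 0 := norm_ne_zero_iff.2 h2
  refine ⟨_, red_of b.ok b.adm ((parS D β).smul_mem (4 / ‖ξ y₀‖) p) fun y => ?_⟩
  rw [Pi.smul_apply, norm_smul, norm_par b.ok b.adm p y y₀, Real.norm_of_nonneg (by positivity),
    div_mul_cancel₀ _ h3]

end Crest.Agent.X212.Msi61.Lc
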