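import Crest.Agent.X212.Msi61.Tw
import Crest.Agent.X212.Nk89.Dic
import Crest.Agent.X212.End14.Free
import Crest.Agent.X212.Ixz30.Nat

/-!
# Row 212, MS-INST (helper61): locality of the twisted equations
-/

set_option autoImplicit false
set_option linter.unusedSectionVars false
noncomputable section
open scoped Manifold ContDiff Topology InnerProductSpace
open MeasureTheory Set Function Filter

namespace Crest.Agent.X212.Msi61
open An M Cyf70 Mod61 Map77 Nk89 Nd18 Eqv71 Sob92 Prm93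

section gen
variable {E : Type} [NormedAddCommGroup E] [NormedSpace ℝ E] [FiniteDimensional ℝ E]
  [MeasurableSpace E] [BorelSpace E]
  {HM : Type} [TopologicalSpace HM] {I : ModelWithCorners ℝ E HM} [I.Boundaryless]
  {M : Type} [TopologicalSpace M] [ChartedSpace HM M] [IsManifold I ∞ M]
  [MeasurableSpace M] [T2Space M] [BorelSpace M] [SecondCountableTopology M]
  {ι lam : Type} [Fintype ι] [Fintype lam] {r n m k : ℕ}
  {T : Type} [NormedAddCommGroup T] [NormedSpace ℝ T] {𝔉 : Mod61.Fam I M ι lam T} {θ : M → ℝ}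

theorem cb_csL {κ : Type} [Fintype κ] (J : En κ) {F : Pre I M ι} (h : F.Cb θ) :
    F.Cb fun x => csL J (Circle.exp (θ x)) :=
  Cb_nem (g := fun s : ℝ => csL J (Circle.exp s))
    (contMDiff_iff_contDiff.1 (sm_csL (I := 𝓘(ℝ, ℝ)) J contMDiff_id)) h

theorem maps_csL (o : Ref 𝔉) : Maps o.Pp o.Pp fun x => csL o.m.J (Circle.exp (θ x)) :=
  fun x v e => by
    by_cases hx : x ∈ 𝔉.Om'
    · rw [Ref.Pp, indicator_of_mem hx] at e ⊢
      rw [csL_apply, map_cs (Wz78.J_pp o.ok x).symm, e]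
    · rw [Ref.Pp, indicator_of_notMem hx] at e ⊢
      rw [← e]; simp

/-- the rotated reference -/
@[reducible] def oR (o : Ref 𝔉) (h : 𝔉.F0.Cb θ) : Ref 𝔉 :=
  { o with
    Φ0 := fun x => cs o.m.J (Circle.exp (θ x)) (o.Φ0 x)
    cΦ := Cb_app (cb_csL o.m.J h) o.cΦ
    pos := fun x => maps_csL o x _ (o.pos x) }

variable {o : Ref 𝔉} (H : 𝔉.OK) (h : 𝔉.F0.Cb θ)

instance [o.B0] : (oR o h).B0 := ⟨Ref.B0.b0 (o := o)⟩

/-- the rotated point -/
def yR (y : Pnt o r) : Pnt (oR o h) r :=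
  ⟨y.α, fun x => cs o.m.J (Circle.exp (θ x)) (y.φ x), y.z, y.t, y.hα, fun k hk =>
    let ⟨a, e⟩ := y.hφ k hk
    ⟨_, funext fun x => (val_mulH (sup0 H) hk (cb_csL o.m.J h) (maps_csL o) a x).trans
      (by rw [e]; rfl)⟩, y.ht⟩

theorem cfg_yR (y : Pnt o r) : (yR H h y).cfg = rot θ y.cfg :=
  congrArg (fun Φ => (⟨o.m, o.W y.t y.α, Φ, y.z⟩ : Cfg M ι lam r))
    (funext fun x => (map_add (csL o.m.J _) (o.Φ0 x) (y.φ x)).symm)

theorem norm_yR (hk : 3 ≤ k) : ∃ C, 1 ≤ C ∧ ∀ y : Pnt o r, ‖(yR H h y).pt k‖ ≤ C * ‖y.pt k‖ := by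
  let L := 𝔉.F0.mulH (k + 1) o.Pp o.Pp fun x => csL o.m.J (Circle.exp (θ x))
  refine ⟨max 1 ‖L‖, le_max_left _ _, fun y => ?_⟩
  have e : ((yR H h y).pt k).2.1 = L (y.pt k).2.1 := ofV_eq (sup0 H) (by omega) (funext fun x =>
    (val_mulH (sup0 H) (by omega) (cb_csL o.m.J h) (maps_csL o) _ x).trans
      (congrArg _ (congrFun (val_ofV y.hφ (by omega)) x)))
  have a : ‖y.pt k‖ ≤ max 1 ‖L‖ * ‖y.pt k‖ := le_mul_of_one_le_left (norm_nonneg _) (le_max_left _ _)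
  refine norm_prod_le_iff.2 ⟨(norm_fst_le (y.pt k)).trans a, norm_prod_le_iff.2 ⟨?_,
    ((norm_snd_le (y.pt k).2).trans (norm_snd_le _)).trans a⟩⟩
  rw [e]
  exact (L.le_opNorm _).trans (mul_le_mul (le_max_right _ _) ((norm_fst_le (y.pt k).2).trans
    (norm_snd_le _)) (norm_nonneg _) (by positivity))

omit H h in
theorem ev_congr (p : PtX M ι lam r n m) {μ : Md M ι lam} {W : μ.Cn} {Φ Φ' : M → μ.V} {z} (e : Φ = Φ') :
    p.D ⟨μ, W, Φ, z⟩ = p.D ⟨μ, W, Φ', z⟩ ∧ p.C ⟨μ, W, Φ, z⟩ = p.C ⟨μ, W, Φ', z⟩ := by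
  subst e; exact ⟨rfl, rfl⟩

omit H h in
/-- constant phases -/
theorem nat_phase {B : Base M ι lam} {G : Geo I M ι lam} (hB : B.OK I) (hG : G.OK B) {O O' : Set M}
    (hO : IsOpen O) {p : PtX M ι lam 0 n m} (hp : NatOn B G O O' p) {c : Cfg M ι lam 0}
    (hc : Adm0 c B G) (h0 : ∀ x ∉ O', c.Φ x = 0) (a : ℝ) :
    (∀ x ∈ O', p.D (rot (fun _ => a) c) x = cs c.m.J (Circle.exp a) (p.D c x)) ∧
      ∀ x ∈ O, p.C (rot (fun _ => a) c) x = p.C c x := by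
  have e := ceq_refl hB hG (ad0_of hc) hO
  obtain ⟨a1, a2, -⟩ := hp c c _ _ hc hc h0 h0 e
  obtain ⟨b1, b2, -⟩ := hp c (rot (fun _ => a) c) c.m.p (Circle.exp a) hc
    (adm0_rot contMDiff_const hc) h0 (rot_off h0) ⟨e.m, e.W, fun x _ => by
      rw [p_Φ (ad0_of hc)]; rfl, Subsingleton.elim _ _⟩
  refine ⟨fun x hx => (b1 x hx).trans ?_, fun x hx => PiLp.ext fun s =>
    (b2 x hx s).trans (a2 x hx s).symm⟩
  have := a1 x hx
  rw [Circle.coe_one, cs_one] at this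
  rw [← this]

/-- the twisted equations where the angle is constant -/
theorem v_tw {p : PtX M ι lam 0 n m} {e : T → PtX M ι lam 0 n m} {c : ℝ} (y : Pnt o 0)
    (he : e y.t = twP (fun x => c + θ x) p) (hp : NatOn 𝔉.B (𝔉.G y.t) 𝔉.Om 𝔉.Om' p) {x : M}
    (hx : θ x = 0) : vD e y x = vD (fun _ => p) (yR H h y) x ∧
      vC e y x = vC (fun _ => p) (yR H h y) x := by
  obtain ⟨n1, n2⟩ := nat_phase H.B (H.G _ y.ht) H.Om.2 hp (adm0_rot (Cb.sm h) (y.ad0 H).adm0)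
    (rot_off (y.off H)) c
  obtain ⟨a1, a2⟩ := ev_congr p (μ := o.m) (W := o.W y.t y.α) (z := y.z)
    (Φ := (rot (fun x => c + θ x) y.cfg).Φ) (Φ' := (rot (fun _ => c) (rot θ y.cfg)).Φ)
    (funext fun x => ((cs_cs o.ok.Jsq _ _ _).trans (by rw [← Circle.exp_add]; rfl)).symm)
  obtain ⟨b1, b2⟩ := ev_congr p (μ := o.m) (W := o.W y.t y.α) (z := y.z)
    (Φ := (yR H h y).cfg.Φ) (Φ' := (rot θ y.cfg).Φ)
    (funext fun x => (map_add (csL o.m.J _) (o.Φ0 x) (y.φ x)).symm)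
  have ind : ∀ {V : Type} [Zero V] {O : Set M} {f g : M → V}, (x ∈ O → f x = g x) →
      O.indicator f x = O.indicator g x := fun {_ _ O _ _} e => (em (x ∈ O)).elim
    (fun k => by rw [indicator_of_mem k, indicator_of_mem k, e k])
    fun k => by rw [indicator_of_notMem k, indicator_of_notMem k]
  refine ⟨ind fun k => ?_, ind fun k => ?_⟩
  · refine (congrArg (fun e : PtX M ι lam 0 n m => e.D y.cfg x) he).trans (Eq.trans
      (congrArg (cs o.m.J _) ((congrFun a1 x).trans (n1 x k))) (Eq.trans ?_ (congrFun b1 x).symm))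
    refine (cs_cs o.ok.Jsq _ _ _).trans ?_
    beta_reduce
    rw [hx, add_zero, ← Circle.exp_add, neg_add_cancel, Circle.exp_zero, Circle.coe_one]
    exact cs_one _ _
  · exact (congrArg (fun e : PtX M ι lam 0 n m => e.C y.cfg x) he).trans
      (((congrFun a2 x).trans (n2 x k)).trans (congrFun b2 x).symm)

end gen

section ends
variable {E : Type} [NormedAddCommGroup E] [NormedSpace ℝ E] [FiniteDimensional ℝ E]
  [MeasurableSpace E] [BorelSpace E]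
  {HM : Type} [TopologicalSpace HM] {I : ModelWithCorners ℝ E HM} [I.Boundaryless]
  {M : Type} [TopologicalSpace M] [ChartedSpace HM M] [IsManifold I ∞ M]
  [MeasurableSpace M] [T2Space M] [BorelSpace M] [SecondCountableTopology M]
  {κ lam : Type} [Fintype κ] [Fintype lam] {n m k : ℕ}
  {T : Type} [NormedAddCommGroup T] [NormedSpace ℝ T] {𝔉 : Mod61.Fam I M (Option κ) lam T}
  {θ : M → ℝ} (P : End 𝔉) {o : Ref 𝔉} {δ R : ℝ}

variable (o k δ R) in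
/-- `End.Loc` with a free spinor of the limit -/
def LocA (t : T) (e : T → PtX M (Option κ) lam 0 n m) (Φ : P.Y.M → o.m.V)
    (h : P.D.Adm ⟨(P.sl o (R + 1) t).m, (P.sl o (R + 1) t).W, Φ, 0⟩) (h0 : ∀ x ∉ P.O' R, Φ x.1 = 0)
    (eZ : PtX (P.Y.M × ℝ) (Option κ) lam 0 0 0) : Prop :=
  ∀ b ρ : ℝ, R ≤ b → ∀ ε > 0, ∃ a, ∀ (y : Pnt o 0) (y' : Pnt (refZ T0 δ h h0) 0), y.t = t →
    ‖y.pt k‖ ≤ ρ → ‖y'.pt k‖ ≤ ρ →
    (∀ x, b < P.sg * x.2 → y.α (P.K.ψ x) = y'.α x ∧ y.φ (P.K.ψ x) = y'.φ x) →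
    NE P.D δ P.sg a k (fun x => vD e y (P.K.ψ x) - vD (fun _ => eZ) y' x) ≤ ε ∧
    NE P.D δ P.sg a k (fun x => vC e y (P.K.ψ x) - vC (fun _ => eZ) y' x) ≤ ε

theorem loc_gen (H : 𝔉.OK) (h : 𝔉.F0.Cb θ) (hk : 3 ≤ k) {p : PtX M (Option κ) lam 0 n m}
    {e : T → PtX M (Option κ) lam 0 n m} {c : ℝ} {t : T} (he : e t = twP (fun x => c + θ x) p)
    (hp : NatOn 𝔉.B (𝔉.G t) 𝔉.Om 𝔉.Om' p) (hz : ∀ z, R < P.sg * z.2 → θ (P.K.ψ z) = 0) {eZ}
    (L : ∀ h1 h0, P.Loc (oR o h) k δ R (fun _ => p) t h1 h0 eZ) (h1) (h0) :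
    P.Loc o k δ R e t h1 h0 eZ := by
  have key : ∀ Φ, Φ = (P.sl (oR o h) (R + 1) t).Φ → ∀ h1 h0,
      LocA (P := P) (o := oR o h) k δ R t (fun _ => p) Φ h1 h0 eZ := by
    rintro _ rfl; exact L
  have one : ∀ z (v : o.m.V), R < P.sg * z.2 → cs o.m.J (Circle.exp (θ (P.K.ψ z))) v = v :=
    fun z v hx => by rw [hz z hx, Circle.exp_zero, Circle.coe_one, cs_one]
  have L := key (P.sl o (R + 1) t).Φ (funext fun y => (one _ _ (by
    rw [End14.sg_sg]; exact lt_add_one R)).symm) h1 h0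
  obtain ⟨C, C1, hC⟩ := norm_yR (r := 0) (o := o) H h hk
  intro b ρ hb ε hε
  obtain ⟨a₀, ha⟩ := L b (C * |ρ|) hb ε hε
  refine ⟨max a₀ R, fun y y' e1 e2 e3 e4 => ?_⟩
  obtain ⟨k1, k2⟩ := ha (yR H h y) y' e1 ((hC y).trans (mul_le_mul_of_nonneg_left
    (e2.trans (le_abs_self _)) (by linarith))) ((e3.trans (le_abs_self _)).trans
      (le_mul_of_one_le_left (abs_nonneg _) C1))
    fun x hx => ⟨(e4 x hx).1, (one _ _ (hb.trans_lt hx)).trans (e4 x hx).2⟩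
  have op : IsOpen {x : P.Y.M × ℝ | max a₀ R < P.sg * x.2} :=
    isOpen_lt continuous_const (by fun_prop)
  subst e1
  have v := fun z (hx : max a₀ R < P.sg * z.2) =>
    v_tw H h y he hp (hz z ((le_max_right _ _).trans_lt hx))
  have s : {x : P.Y.M × ℝ | max a₀ R < P.sg * x.2} ⊆ {x | a₀ < P.sg * x.2} :=
    fun _ hx => lt_of_le_of_lt (le_max_left a₀ R) hx
  exact ⟨((Gl67.N_congr op.measurableSet fun x hx => (op.eventually_mem hx).mono fun z hz =>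
      congrArg (· - _) (v z hz).1).trans_le (Gl67.N_mono s)).trans k1,
    ((Gl67.N_congr op.measurableSet fun x hx => (op.eventually_mem hx).mono fun z hz =>
      congrArg (· - _) (v z hz).2).trans_le (Gl67.N_mono s)).trans k2⟩

theorem lit_oR (h : 𝔉.F0.Cb θ) (l : P.Lit o R) {c : ℝ} (hz : ∀ z, R < P.sg * z.2 → θ (P.K.ψ z) = c) :
    P.Lit (oR o h) R :=
  ⟨fun t ht s hs => congrArg₂ rot (funext fun y => (hz _ (by rwa [End14.sg_sg])).trans
    (hz _ (by rw [End14.sg_sg]; exact lt_add_one R)).symm) (l.eq t ht s hs), l.tmp⟩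

end ends

variable {κ lam : Type} [Fintype κ] [Fintype lam] {Y : Mf 3} [CompactSpace Y.M]
  {N : ND Y.M lam} {D : YD Y.I Y.M κ lam} {δ R : ℝ} {k : ℕ} {b : Bool}
  {o : Ref (famZ ℝ D δ (spO b univ))}

theorem cb_ang (t a : ℝ) : (famZ ℝ D δ (spO b univ)).F0.Cb fun x => ang t x - a :=
  Cb_sub (Cb_smul (Cb_const t) (cb_hcZ (.inl rfl) 0)) (Cb_const a)

/-- the angle on the ends -/
theorem ang_end (t : ℝ) (a : Bool) {x : Y.M × ℝ} (hx : 1 ≤ (bif a then 1 else -1) * x.2) :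
    ang t x = bif a then t else 0 := by
  cases a
  · exact ang_bot t (by simp at hx; linarith)
  · exact ang_top t (by simpa using hx)

theorem nat_sub {O' : Set (Y.M × ℝ)} {p p' : PtX (Y.M × ℝ) (Option κ) lam 0 0 0}
    (a : NatOn D.B D.G univ O' p) (b : NatOn D.B D.G univ O' p') : NatOn D.B D.G univ O' (p - p') :=
  fun c c' u ζ h h' h0 h0' e => by
    have a := a c c' u ζ h h' h0 h0' e
    have b := b c c' u ζ h h' h0 h0' e
    refine ⟨fun x hx => (congrArg₂ (· - ·) (a.1 x hx) (b.1 x hx)).trans ?_, fun x hx s =>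
      (congrArg₂ (· - ·) (a.2.1 x hx s) (b.2.1 x hx s)).trans (map_sub _ _ _).symm,
      finZeroElim, Subsingleton.elim _ _⟩
    rw [← csL_apply, ← csL_apply, ← map_sub, ← map_sub]
    rfl

theorem nat_q2 (h : (XD.mk Y D N).OK) (w : YW Y.I Y.M) {O' : Set (Y.M × ℝ)} : NatOn D.B D.G univ O'
    (-⟨N.q2 D.nk w.1, fun _ => 0⟩ : PtX (Y.M × ℝ) (Option κ) lam 0 0 0) :=
  have := h.con
  zero_sub (⟨N.q2 D.nk w.1, fun _ => 0⟩ : PtX (Y.M × ℝ) (Option κ) lam 0 0 0) ▸ nat_sub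
    (fun _ _ _ _ _ _ _ _ _ => ⟨fun _ _ => by simp [cs_zero], fun _ _ _ => by simp, finZeroElim, rfl⟩)
    (natOn_of_pnat0 h.ok.B h.ok.G isOpen_univ (subset_univ O') (q2_nat1 D.nk h.ok.B h.ok.G
      (Cht98.tame_cyl D.F Y.dim.le) isClopen_univ h.nd w.2) fun _ _ _ _ _ => rfl)

theorem nat_eQ (h : (XD.mk Y D N).OK) (q : YW Y.I Y.M →₀ ℝ) {O' : Set (Y.M × ℝ)} :
    NatOn D.B D.G univ O' (eQ N D q) :=
  have := h.con
  nat_sub (natOn_eq0 h.ok.B h.ok.G isOpen_univ (subset_univ O'))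
    (natOn_of_pnat0 h.ok.B h.ok.G isOpen_univ (subset_univ O') (pt_nat1 D.nk h.ok.B h.ok.G
      (Cht98.tame_cyl D.F Y.dim.le) isClopen_univ h.nd q) fun _ _ _ _ _ => rfl)

/-- **locality of the twisted equations** -/
theorem loc_tw (h : Wd (D := D) N δ) [o.B0] (hL : LocL N D k δ) (hk : 3 ≤ k) (l : (h.X b).Lit o R)
    (q : YW Y.I Y.M →₀ ℝ) (a : Bool) (t : ℝ) (h1) (h0) : ((h.X b).P a).Loc o k δ R
      (fun t => twP (ang t) (eQ N D q)) t h1 h0 (eZ N D) := by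
  have R1 : (1 : ℝ) ≤ R := l.le
  have hθ := cb_ang (D := D) (δ := δ) (b := b) t (bif a then t else 0)
  refine loc_gen _ (h.X b).ok hθ hk (c := bif a then t else 0) (p := eQ N D q)
    (congrArg₂ twP (funext fun x => (add_sub_cancel _ _).symm) rfl) (nat_eQ h.ok q)
    (fun z hz => sub_eq_zero.2 (ang_end t a (R1.trans hz.le))) (fun h1 h0 => ?_) h1 h0
  exact hL h b _ R q a t h1 h0 ⟨l.le, fun a' => lit_oR _ hθ (l.lit a')
    fun z hz => congrArg (· - _) (ang_end t a' (R1.trans hz.le))⟩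

end Crest.Agent.X212.Msi61
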