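import Crest.Agent.X212.Msi61.Ker
import Crest.Agent.X212.Trn40.Sh
import Crest.Agent.X212.Wrd81.MsB
import Crest.Agent.X212.Wrd81.Trf
import Crest.Agent.X212.Num57.IxF
import Crest.Agent.X212.Mon62.NkZ
import Crest.Agent.X212.Pj41.LinLim
import Crest.Agent.X212.Dgr80.Chh
import Crest.Agent.X212.Dgr80.PosC
import Crest.Agent.X212.Smt39.Main

/-!
# Row 212, MS-INST (helper61): the axioms of the trajectory problems
-/

set_option autoImplicit false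
set_option linter.unusedSectionVars false
noncomputable section
open scoped Manifold ContDiff Topology InnerProductSpace
open MeasureTheory Set Function Filter

namespace Crest.Agent.X212.Msi61
open An M Cyf70 Mod61 Map77 Nk89 Nd18 Eqv71 Sob92 Prm93 Wrd81

variable {κ lam : Type} [Fintype κ] [Fintype lam] {Y : Mf 3} [CompactSpace Y.M]
  {N : ND Y.M lam} {D : YD Y.I Y.M κ lam} {δ d : ℝ} {b : Bool} {h : Wd (D := D) N δ}
  {q : YW Y.I Y.M →₀ ℝ} {c : Cfg (Y.M × ℝ) (Option κ) lam 0} {S : N.CD D} {k : ℕ} {i j : S.C}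
  {ζ ζ' : Circle}

theorem rt_of {o : Ref (famZ ℝ D δ (spO b univ))} {y : Pnt o 0} (t : y.t = 0)
    (e : IsoOn D.B D.Z univ c y.cfg) : Rt c y := by
  rw [Rt, rot_zero fun x => by rw [t, ang_zero]]; exact e

variable (h) in
/-- trajectories are represented in a chart -/
theorem Wd.tj (hd : δ < d) (hE : ElL S d q) (T : N.Traj D q c (S.β i) (S.β j) ζ ζ')
    (h0 : ∀ x ∉ spO b univ, c.Φ x = 0) :
    ∃ (o : Ref (famZ ℝ D δ (spO b univ))) (R : ℝ) (y : Pnt o 0), o.B0 ∧ (h.X b).Lit o R ∧ y.t = 0 ∧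
      IsoOn D.B D.Z univ c y.cfg ∧
      ∀ a t, D.Eqv (S.β (bif a then j else i)) (((h.X b).P a).sl o (R + 1) t) :=
  h.pnt (ζ := fun a => bif a then ζ' else ζ) hd T.sol.toAdm h0 (fun _ => adm_β _) fun a => by
    cases a
    exacts [(hE i j c ζ ζ' T).1, (hE i j c ζ ζ' T).2]

theorem Wd.lev (h : Wd (D := D) N δ) {H : Hd D} (hL : H.Lvl S) (hd : δ < d) (hE : ElL S d q) : S.Lev (H.gr S) q :=
  fun i j c _ _ T => by
    obtain ⟨o, R, y, -, l, t, r, e⟩ := h.tj (b := true) hd hE T fun _ k => (k trivial).elim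
    rw [← h.kap l (ad0 T.sol.toAdm) (rt_of t r)]
    exact hL.path _ i j (h.std l (fun a => by cases a <;> exact adm_β _) y.t
      fun a => by cases a; exacts [e false _, e true _])

theorem O'_eq (a : Bool) (R : ℝ) : ((h.X b).P a).O' R = spO b univ := by
  cases b
  · exact eq_empty_of_forall_notMem fun x hx => @hx (x.1, ((h.X false).P a).sg * (R + 1))
      ⟨trivial, (lt_add_one R).trans_eq (End.sg_sg ((h.X false).P a) _).symm⟩
  · exact eq_univ_of_forall fun _ => subset_univ _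

/-- charts exist -/
theorem exists_ch (hk : 7 ≤ k) (aff : AfL N D δ) (loc : LocL N D k δ) (hd : δ < d) (hE : ElL S d q)
    (fz : ∀ f i, f = true ∨ D.Zr (S.β i) → Fz κ lam k ⟨Y, D, N⟩ f (S.β i) δ)
    (T : N.Traj D q c (S.β i) (S.β j) ζ ζ') (h0 : ∀ x ∉ spO b univ, c.Φ x = 0)
    (hb : b = true ∨ D.Zr (S.β i) ∧ D.Zr (S.β j)) :
    ∃ (C : Ch h S k i j b) (y : Pnt C.o 0), y.t = 0 ∧ IsoOn D.B D.Z univ c y.cfg := by
  obtain ⟨o, R, y, _, l, t, r, e⟩ := h.tj hd hE T h0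
  have A := aff h b o R q y l t (zr_nat (nat_eQ h.ok q) (ad0 T.sol.toAdm) (h.ad y) h0
    (y.off (h.X b).ok) r (zr_sol T.sol))
  have s := Smt39.smL D δ N h b o R l
  have L : ∀ (q : YW Y.I Y.M →₀ ℝ) t a h1 h0, CylOK (δ := δ) h1 h0 k (eZ N D) ∧ ((h.X b).P a).Loc o k δ R
      (eT N D + q.sum fun w c => c • τT N D w) t h1 h0 (eZ N D) := fun q t a h1 h0 => by
    have z : b = true ∨ D.Zr (S.β (bif a then j else i)) := hb.imp id fun z => by
      cases a; exacts [z.1, z.2]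
    refine ⟨fz b _ z _ h1 _ h0 (O'_eq (h := h) a R) ?_, by
      rw [tot_eq]; exact loc_tw h loc (by omega) l q a t h1 h0⟩
    have e := e a t
    generalize S.β (bif a then j else i) = β at z e
    obtain ⟨m, W, Φ, w⟩ := β
    obtain rfl : w = 0 := Subsingleton.elim _ _
    cases b
    · obtain rfl : Φ = 0 := funext (z.resolve_left (by simp))
      exact e
    · exact e
  obtain ⟨n, hn⟩ := Rz57.idx_const (h.X b) hk l isPreconnected_univ A s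
    fun q t _ a _ h1 h0 => ⟨_, L q t a h1 h0⟩
  exact ⟨⟨o, R, n, ‹_›, l, e, A, s, hn, L⟩, y, t, r⟩

/-- the values of the terms are dense -/
theorem top0 {o : Ref (famZ ℝ D δ (spO b univ))} {y : Pnt o 0} (F : (famZ ℝ D δ (spO b univ)).OK)
    [PreconnectedSpace Y.M] (hk : 4 ≤ k) (H : MH N D y.cfg D.G.a) (f : b = true → ¬Fix D.Z y.cfg univ)
    (g : ¬Fix D.Z y.cfg univ ∨ ¬Nd18.Lin D.Z y.cfg univ ∧ ∃ x, y.cfg.m.Fg D.Z y.cfg.W x ≠ 0)
    {τ : YW Y.I Y.M → ℝ → PtX (Y.M × ℝ) (Option κ) lam 0 0 0}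
    (hτ : ∀ w, τ w y.t = (-1 : ℝ) • ⟨N.q2 D.nk w.1, fun _ => 0⟩) {U : Submodule ℝ (o.Y 0 0 k)}
    (hU : IsClosed (U : Set (o.Y 0 0 k))) (hv : ∀ w e, RepE (τ w) y e → e ∈ U) (e : o.Y 0 0 k) :
    e ∈ U := by
  refine Dn.top F ⟨fun v v1 v2 v3 => ?_, fun v v1 _ v3 => Ap.mono ?_ (H.ap_C g v1 v3)⟩ hU hk
    (fun s => mem_of_eq_of_mem (by rw [Subsingleton.elim s 0]; rfl) U.zero_mem)
    (fun ρ => ⟨0, U.zero_mem, Subsingleton.elim _ _⟩) e
  · cases b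
    · obtain rfl : v = 0 := tsupport_eq_empty_iff.1 (subset_eq_empty v2 (inter_empty _))
      exact zero_mem _
    · refine Ap.mono ?_ (H.ap_D (f rfl) v1 v3)
      rintro _ ⟨w, rfl, t1, t2⟩
      exact ⟨t2, .of_rep (hv w) (s := -1) (by simp) (fun x _ => by rw [hτ]; rfl)
        (fun x _ => by rw [hτ]; exact congrArg ((-1 : ℝ) • ·) (congrFun t1 x))
        (Subsingleton.elim _ _) (Subsingleton.elim _ _)⟩
  · rintro _ ⟨w, rfl, t1, t2⟩
    exact ⟨t2, .of_rep (hv w) (s := -1) (by simp)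
      (fun x _ => by rw [hτ]; exact congrArg ((-1 : ℝ) • ·) (congrFun t1 x))
      (fun x _ => by rw [hτ]; rfl) (Subsingleton.elim _ _) (Subsingleton.elim _ _)⟩

/-- the universal linearisation is onto -/
theorem Ch.onto (C : Ch h S k i j b) (hk : 7 ≤ k) (T : N.Traj D q c (S.β i) (S.β j) ζ ζ')
    (hm : D.Moves c) (ty : S.Ty c b) (hb : b = true ∨ D.Zr (S.β i) ∧ D.Zr (S.β j)) {y : Pnt C.o 0}
    (t : y.t = 0) (r : IsoOn D.B D.Z univ c y.cfg) : ∃ J, (C.Q hk).Onto q ⟨(), y⟩ J := by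
  have := h.ok.con
  have F := (h.X b).ok
  have a := ad0 T.sol.toAdm
  have ⟨B, G⟩ := h.ok.ok
  have z : ∀ x ∉ spO b univ, c.Φ x = 0 := by
    cases b
    exacts [fun _ _ => ty _ trivial, fun _ k => (k trivial).elim]
  have s := C.sol hk T.sol z (rt_of t r)
  obtain ⟨u, ξ, e⟩ := r.symm B G isOpen_univ a (h.ad y)
  obtain ⟨u', ξ', r⟩ := r
  have p : Pc y.cfg D.B D.G univ univ := pc F y isClopen_univ isOpen_univ (by simp)
  have w : ∀ a, D.Z.Cb (y.cfg.W a) := cb_W F y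
  have m := (h.okZ.moves_iso a (h.ad y) r).2 hm
  have H : MH N D y.cfg D.G.a := ⟨p, h.okZ.tame, w, h.ok.nd.δ0, ewT_ne p h.okZ.tame w h.ok.nd
    (Mon62.int_ewZ h.ok.ok h.d0 (clo b) h.hs h.ok.nd h.dN C.lit y) m⟩
  have f : b = true → ¬Fix D.Z y.cfg univ := by
    rintro rfl k
    exact ty (ceq_fix (lg_refl B G isOpen_univ) (inv_refl isOpen_univ) (h.ad y) a e k)
  have g : ¬Fix D.Z y.cfg univ ∨ ¬Nd18.Lin D.Z y.cfg univ ∧ ∃ x, y.cfg.m.Fg D.Z y.cfg.W x ≠ 0 := by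
    cases b
    · refine .inr ⟨fun k => S.irr i (hb.resolve_left (by simp)).1 (Pj41.traj_lin (adm_β i) (adm_β j)
        (traj_pre h.okZ h.ok.nd (adm_β i) (adm_β j) T ⟨p.ok, p.conn, p.sm, (h.ad y).pos, .inl rfl⟩ e)
        k).1, by_contra fun n => m.choose_spec ?_⟩
      have : y.cfg.Φ = 0 := funext fun x => y.off F x id
      simp [Dgr80.en, Dgr80.xA, Dgr80.xP, Dgr80.nt, this, Wz78.nab, dv_zero,
        not_not.1 (not_exists.1 n _), ← Pi.zero_def]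
    · exact .inl (f rfl)
  exact (C.ok hk _).onto trivial s fun U hU _ hv => top0 (k := k) F (by omega) H f g (τ := τT N D)
    (fun w => (twP_zero fun x => by rw [t, ang_zero]).trans (neg_one_smul ℝ _).symm) hU hv

theorem Wd.ax (h : Wd (D := D) N δ) {H : Hd D} (hk : 7 ≤ H.k) (A : H.Aps S δ) (aff : AfL N D δ) (loc : LocL N D H.k δ)
    {d' : ℝ} (hd : δ < d) (hd' : δ < d') {Adm : (YW Y.I Y.M →₀ ℝ) → Prop} (hE : ∀ q, Adm q → ElL S d q)
    (hP : ∀ q, Adm q → S.Lev (H.gr S) q ∧ S.Pos q) (hC : CmpL S (H.gr S) d' Adm) :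
    (msR h S hk).Ax (H.gr S) Adm :=
  have := h.ok.con
  have ty := fun q => Pj41.typ h.ok.ok S q
  { lev q a := (hP q a).1
    pos q a := (hP q a).2
    typ q _ := ty q
    ax _ _ _ C := (Ch.ok hk C Adm).ax
    sol _ _ _ _ C q _ _ _ m t := fun ⟨s, r⟩ => let ⟨_, _, T⟩ := m.tr
      Ch.sol hk C ((h.okZ.pt h.ok.nd q).sol_sh h.okZ T.sol s) (off_ty t s) r
    dens i j _ b q c a m t := by
      obtain ⟨ζ, ζ', T⟩ := m.tr
      have z := zr_ty (ty q) T t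
      obtain ⟨C, y, t0, r⟩ := exists_ch (h := h) hk aff loc hd (hE q a) (fun f i z => (A.fz f i z).1) T
        (by cases b; exacts [fun _ _ => t _ trivial, fun _ k => (k trivial).elim]) z
      refine ⟨C, ⟨(), y⟩, ⟨0, ?_⟩, .inr (C.onto hk T m.mv t z t0 r)⟩
      rw [show sh 0 c = c from (congrArg (Nd18.pb · c) (funext fun x => by simp) :
        Nd18.pb _ c = Nd18.pb id c)]
      exact rt_of t0 r
    ker _ _ _ _ C q _ _ a m t r g := ker hk A hd (hE q a) (ty q) C m t r g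
    comp i j n b q₀ a ι 𝒰 q c hq hc := (hC i j n b q₀ a ι 𝒰 q c hq hc).imp_left
      fun ⟨c₀, s, m, z, g⟩ => ⟨c₀, m, z, fun _ C x ⟨s₀, r⟩ => by
        have ad := hc.mono fun _ k => let ⟨_, _, T⟩ := k.2.1.tr; T.sol.toAdm
        obtain ⟨_, _, T⟩ := m.tr
        have e : ∀ m, sh s₀ (sh (s m) (c m)) = sh (s₀ + s m) (c m) := fun m => by
          show Nd18.pb (fun x : Y.M × ℝ => (x.1, x.2 + s₀ + s m)) (c m) = _
          simp only [add_assoc]
        have g := Trn40.stg_sh (adm_β i) (adm_β j) (ad.mono fun m k => adm_sh k (s m)) g s₀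
        simp only [e] at g
        obtain ⟨y, k1, k2⟩ := Ch.near hk C (Nr74.nearL N D δ) hd' (ad0_sh (ad0 T.sol.toAdm) s₀) r
          ((ad.and hc).mono fun m k => ⟨(ad0_sh (ad0 k.1) _).adm0, off_ty k.2.2.2 _⟩) g
        exact fun A hA => ((k2.eventually hA).and k1).mono fun m k => ⟨_, k.1, _, k.2⟩⟩ }

/-- **MS-INST** -/
theorem ms (H : Hd D) (S : N.CD D) (hX : (XD.mk Y D N).OK) (hk : 7 ≤ H.k) (hL : H.Lvl S)
    (hA : ∃ δ₀ > 0, ∀ δ > 0, δ < δ₀ → H.Aps S δ) (aff : ∀ δ, AfL N D δ)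
    (loc : ∀ δ, 8 * δ ≤ N.δ → LocL N D H.k δ) (el : ElS S) (cmp : CmpS S (H.gr S)) {cI : ℤ}
    (hI : S.RuleI (H.gr S) cI) (hS : S.RuleS (H.gr S)) :
    (GV fun q => S.Lev (H.gr S) q ∧ S.Pos q ∧ S.Good (H.gr S) q) ∧
      An.Sml fun Adm => ∀ q, Adm q → S.Lev (H.gr S) q ∧ S.Pos q := by
  obtain ⟨δ₀, p0, hA⟩ := hA
  obtain ⟨d, p1, el⟩ := el
  obtain ⟨d', p2, cmp⟩ := cmp
  obtain ⟨δ₁, p3, hs⟩ := exists_sml
  have p4 := hX.nd.δ0
  obtain ⟨δ, k0, k1, k2, k3, k4, k5, k6⟩ : ∃ δ, 0 < δ ∧ δ < δ₀ ∧ δ < d ∧ δ < d' ∧ δ < δ₁ ∧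
      δ < 1 / 16 ∧ δ < N.δ / 8 := by
    have l := fun {a : ℝ} (h : 0 < a) => (gt_mem_nhds h).filter_mono (nhdsWithin_le_nhds (s := Ioi 0))
    exact ((show ∀ᶠ δ in 𝓝[>] (0 : ℝ), 0 < δ from self_mem_nhdsWithin).and ((l p0).and ((l p1).and
      ((l p2).and ((l p3).and ((l (by norm_num)).and (l (by positivity)))))))).exists
  have h : Wd (D := D) N δ := ⟨hX, k0, hs δ (by rw [abs_of_pos k0]; exact k4.le), k5.le, by linarith⟩
  obtain ⟨sz, hz⟩ := Dgr80.ms_pos Dgr80.posStmt hX.ok Y.dim.le hX.nd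
  have P : An.Sml fun Adm => ∀ q, Adm q → S.Lev (H.gr S) q ∧ S.Pos q :=
    (el.and (P' := fun Adm => ∀ q, Adm q → Nd18.Sml sz q) ⟨fun w => |sz w|, fun _ => abs_nonneg _,
      fun _ k q a => Nd18.Sml.mono (by simpa [Ball, Nd18.Sml] using k q a) fun _ => le_abs_self _⟩).mono
      fun _ k q a => ⟨h.lev hL k2 (k.1 q a), (hz q (k.2 q a) S fun i j c ζ ζ' T =>
        ⟨⟨d, p1, (k.1 q a i j c ζ ζ' T).1⟩, d, p1, (k.1 q a i j c ζ ζ' T).2⟩).1⟩
  exact ⟨ND.CD.MsR.ms (A := msR h S hk) hI hS ((el.and (P.and cmp)).mono fun _ k o =>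
    h.ax hk (hA δ k0 k1) (aff δ) (loc δ (by linarith)) k2 k3 k.1 k.2.1 (k.2.2 o k.2.1)), P⟩

end Crest.Agent.X212.Msi61
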