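import Crest.Agent.X212.Nt92.Main
import Crest.Agent.X212.Qa50.Add
import Crest.Agent.X212.Wrd81.Pw
import Crest.Agent.X212.Grp76.Md

/-!
# Row 212, NT-R (helper61): density of the normal derivatives of the curvature words
-/

set_option autoImplicit false
set_option linter.unusedSectionVars false
noncomputable section
open scoped Manifold ContDiff Topology InnerProductSpace
open MeasureTheory Set Function Filter

namespace Crest.Agent.X212.Msi61.Rc
open An Sob92 Wrd81 Wz78 Mod61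
open Nt92 (qL ND Dir)
open Qab60 (tn Off)
open Num57 (hs V2)

variable {E : Type} [NormedAddCommGroup E] [NormedSpace ℝ E] [FiniteDimensional ℝ E]
  [MeasurableSpace E] [BorelSpace E]
  {HM : Type} [TopologicalSpace HM] {I : ModelWithCorners ℝ E HM} [I.Boundaryless]
  {M : Type} [TopologicalSpace M] [ChartedSpace HM M] [IsManifold I ∞ M]
  [MeasurableSpace M] [T2Space M] [BorelSpace M] [SecondCountableTopology M]
  {ι : Type} [Fintype ι] {lam : Type} [Fintype lam]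

theorem sm_toLp {α V : Type} [Fintype α] [NormedAddCommGroup V] [NormedSpace ℝ V] {f : α → M → V}
    (hf : ∀ a, Sm I (f a)) : Sm I fun x => (WithLp.toLp 2 fun a => f a x : Fm α V) :=
  (PiLp.continuousLinearEquiv 2 ℝ fun _ : α => V).symm.contDiff.contMDiff.comp
    (contMDiff_pi_space.2 hf)

theorem tn_zero {α V : Type} [NormedAddCommGroup V] [NormedSpace ℝ V] (g : Fm α ℝ) :
    tn g (0 : V) = 0 := by ext1 t; simp [tn]

section
variable {m : Md M ι lam} {B : Base M ι lam} {G : Geo I M ι lam} {W : m.Cn} {α : M → Fm ι m.A}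
  {Ω : Set M} {ξ : M → m.A}

/-- the unit axis -/
abbrev u4 (ξ : M → m.A) : M → m.A := fun x => (4⁻¹ : ℝ) • ξ x

/-- the coefficient along the axis -/
def ab (ξ : m.A) (v : Fm (ι × ι) m.A) : V2 ι := WithLp.toLp 2 fun s => 16⁻¹ * ⟪ξ, v s⟫_ℝ

theorem idn {x : M} (h : ξ x ∈ m.gS x) (v : Fm (ι × ι) m.A) : idx (B.sd x) (qL (u4 ξ) x) v =
    m.p2 B x v - tn (ab (ξ x) (m.p2 B x v)) (ξ x) := by
  ext1 s
  simp only [Md.p2, idx_apply, Nt92.qL_apply, tn, ab, PiLp.sub_apply, inner_sum, smul_sub,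
    Finset.sum_sub_distrib, real_inner_smul_right, real_inner_smul_left, ← inner_pg, pg_of_mem h,
    smul_smul, Finset.mul_sum, Finset.sum_smul]
  exact congrArg _ (Finset.sum_congr rfl fun t _ => congrArg (· • ξ x) (by ring))

theorem hs_ab (hG : G.OK B) {x : M} (h : ξ x ∈ m.gS x) {v : Fm (ι × ι) m.A} (e : m.p2 B x v = v) :
    hs G.F B.o x (ab (ξ x) v) = ab (ξ x) v := by
  ext1 s
  conv_rhs => rw [← e]
  simp only [hs, Num57.sd, Md.p2, idx_apply, hG.P, ab, inner_sum, real_inner_smul_right, ← inner_pg,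
    pg_of_mem h, Finset.mul_sum, mul_left_comm (16⁻¹ : ℝ)]
  rfl

theorem p2_tn (hG : G.OK B) {x : M} (h : ξ x ∈ m.gS x) {g : V2 ι} (e : hs G.F B.o x g = g) :
    m.p2 B x (tn g (ξ x)) = tn g (ξ x) := by
  rw [tn, Abel74.p2_smul h]
  conv_rhs => rw [← e]
  simp only [hs, Num57.sd, idx_apply, hG.P]
  rfl

variable (h : Dir B G W α) (R : Loc8.Rd G.F m W Ω ξ) (cl : IsClopen Ω)
include h R cl

theorem ab4 (con : IsPreconnected Ω) (ne : ∃ y ∈ Ω, m.Fg G.F W y ≠ 0) : Nt92.Ab G W Ω (u4 ξ) :=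
  have s := Qa50.rd_sm R cl.1
  ⟨sm_smul contMDiff_const s, fun x => Submodule.smul_mem _ _ (Qa50.rd_mem R x), fun a x => by
    rw [nab_csmul a _ (s x), Qa50.rd_par R cl.1, smul_zero], fun x hx => by
    have := Abel74.norm_sq h.ok (R.mem x hx) (R.sq x hx)
    rw [norm_smul, Real.norm_of_nonneg (by norm_num)]
    nlinarith [norm_nonneg (ξ x)], fun x hx => by rw [u4, R.off x hx, smul_zero], cl, con, ne⟩

theorem nt' (con : IsPreconnected Ω) (ne : ∃ y ∈ Ω, m.Fg G.F W y ≠ 0)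
    (ng : ¬∃ η : M → m.A, ∀ x ∈ Ω, SA I η x ∧ η x ∈ m.gS x ∧ ⟪η x, ξ x⟫_ℝ = 0 ∧
      ∀ i, nab I G.F.e (m.adW W) i η x + adc (opL (α x i)) (ξ x) = 0)
    (F' : Pre I M ι) (k : ℕ) (u : M → Fm (ι × ι) m.A) (h1 : Sm I u) (h2 : HasCompactSupport u)
    (h3 : tsupport u ⊆ Ω) (h4 : ∀ x, idx (B.sd x) (qL (u4 ξ) x) (u x) = u x) :
    u ∈ Ap F' k {v | ∃ g g', Tf I Ω g ∧ Tf I Ω g' ∧ ∃ δ, ND I m G.F W α Ω δ ∧
      v = fun x => idx (B.sd x) (qL (u4 ξ) x) (wg G.F m.A g g' x (δ x))} := by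
  have b := ab4 h R cl con ne
  refine ((b.nt h cl.2 (by simp)).resolve_left fun ⟨η, z1, _, z3, z4⟩ => ng ?_).1 Ω cl.2
    (by simp) F' k u h1 h2 h3 h4
  have s := Qa50.rd_sm R cl.1
  have xm := Qa50.rd_mem R
  have sJ : Sm I fun x => adc (opL (ξ x)) := (adcL ∘L opL).contMDiff.comp s
  have zm : ∀ x, η x ∈ m.gS x := fun x => z3 x ▸ b.qL_mem x _
  refine ⟨fun x => adc (opL (ξ x)) (η x), fun x hx => ⟨SA.app (sJ x) (z1 x), adc_mem (xm x) (zm x),
    by rw [adc_skw (g_skw (xm x))]; simp [adc_apply], fun a => ?_⟩⟩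
  have p : nabE I G.F.e (m.adW W) a (fun x => adc (opL (ξ x))) x = 0 := by
    refine (nab_map (A := fun a y => ad _ (W a y)) (A' := fun a y => ad _ (m.adW W a y)) adcL a
      (adc_lie _ _).symm (SA.clm opL (s x))).trans ?_
    have := opL_nab (e := G.F.e) (W := W) a (s x)
    rw [R.par x hx, map_zero] at this
    exact (congrArg adcL this).trans (map_zero _)
  rw [nab_app' a (sJ x) (z1 x), p, z4 a x hx, Nt92.qL_apply, pg_of_mem (h.mem x a), map_sub, map_smul,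
    map_smul]
  simp [adc_apply]

end

variable {T : Type} [NormedAddCommGroup T] [NormedSpace ℝ T] {𝔉 : Fam I M ι lam T} (h : 𝔉.OK)
  {o : Ref 𝔉} {G : Geo I M ι lam} {W : o.m.Cn} {α : M → Fm ι o.m.A} {Ω : Set M} {ξ : M → o.m.A}
include h

theorem sec_p2 (u : Sec I o.P2) (x : M) : o.m.p2 𝔉.B x (u.1 x) = u.1 x := by
  by_cases hx : x ∈ 𝔉.Om
  · rw [← on_P2 hx, u.2.2.2]
  · rw [← u.2.2.2 x, off_P2 hx, zero_apply, map_zero]

theorem dens {k : ℕ} (hk : 4 ≤ k) (D : Dir 𝔉.B G W α) (R : Loc8.Rd G.F o.m W Ω ξ) (cl : IsClopen Ω)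
    (con : IsPreconnected Ω) (sub : Ω ⊆ 𝔉.Om) (ne : ∃ y ∈ Ω, o.m.Fg G.F W y ≠ 0)
    (ng : ¬∃ η : M → o.m.A, ∀ x ∈ Ω, SA I η x ∧ η x ∈ o.m.gS x ∧ ⟪η x, ξ x⟫_ℝ = 0 ∧
      ∀ i, nab I G.F.e (o.m.adW W) i η x + adc (opL (α x i)) (ξ x) = 0)
    {N : Submodule ℝ (𝔉.F0.H k o.P2)} (hN : IsClosed (N : Set (𝔉.F0.H k o.P2)))
    (hit : ∀ g g', Tf I Ω g → Tf I Ω g' → ∀ δ, ND I o.m G.F W α Ω δ → ∃ e ∈ N,
      (∀ z ∉ Ω, 𝔉.F0.val k o.P2 e z = 0) ∧
      ∀ z ∈ Ω, 𝔉.F0.val k o.P2 e z = o.m.p2 𝔉.B z (wg G.F o.m.A g g' z (δ z)))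
    (ha : ∀ g, Sm I g → HasCompactSupport g → Off Ω g → (∀ z, hs G.F 𝔉.B.o z (g z) = g z) →
      ∀ e, (∀ z, 𝔉.F0.val k o.P2 e z = tn (g z) (ξ z)) → e ∈ N)
    (e : 𝔉.F0.H k o.P2) (he : ∀ z ∉ Ω, 𝔉.F0.val k o.P2 e z = 0) : e ∈ N := by
  have s := Qa50.rd_sm R cl.1
  have xm := Qa50.rd_mem R
  have A : ∀ u : Sec I o.P2, tsupport u.1 ⊆ Ω → ∃ a : Sec I o.P2, 𝔉.F0.toH k _ a ∈ N ∧
      ∀ x, a.1 x = tn (ab (ξ x) (u.1 x)) (ξ x) := fun u hu => by
    have g1 : Sm I fun x => ab (ξ x) (u.1 x) := sm_toLp fun t =>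
      ((16 : ℝ)⁻¹ • ContinuousLinearMap.id ℝ ℝ).contMDiff.comp fun x => SA.inner (s x)
        ((PiLp.proj 2 (fun _ : ι × ι => o.m.A) t).contMDiff.comp u.2.1 x)
    have g0 : ∀ x, u.1 x = 0 → ab (ξ x) (u.1 x) = 0 := fun x e => by ext1 t; simp [ab, e]
    have g2 : HasCompactSupport fun x => ab (ξ x) (u.1 x) :=
      u.2.2.1.mono fun x hx e => hx (g0 x e)
    have g3 := fun x => hs_ab D.hG (xm x) (sec_p2 h u x)
    have m : (fun x => tn (ab (ξ x) (u.1 x)) (ξ x)) ∈ Sec I o.P2 :=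
      ⟨sm_toLp fun t => sm_smul ((PiLp.proj 2 (fun _ : ι × ι => ℝ) t).contMDiff.comp g1) s,
        g2.mono fun x hx e => hx (by ext1 t; simp [tn, e]), fun x => by
        by_cases hx : x ∈ Ω
        · rw [on_P2 (sub hx), p2_tn D.hG (xm x) (g3 x)]
        · simp only [R.off x hx, tn_zero, map_zero]⟩
    exact ⟨⟨_, m⟩, ha _ g1 g2 (fun x hx => g0 x (image_eq_zero_of_notMem_tsupport fun k => hx (hu k)))
      g3 _ (congrFun (val_toH h.sup hk _)), fun _ => rfl⟩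
  have c := Grp76.Cb_ind (F := 𝔉.F0.toPre) cl (Cb_const (1 : ℝ))
  rw [← val_injective h.sup hk (a₁ := smulH _ k _ _ e) (a₂ := e) (funext fun x => by
    rw [val_smulH h.sup hk c]
    by_cases hx : x ∈ Ω <;> simp [hx, he])]
  refine HO_map hN (.id ℝ _) (fun u hu => ?_) (smulH_mem_HO c (closure_minimal
    support_indicator_subset cl.1) e)
  obtain ⟨a, a1, a2⟩ := A u hu
  have n1 : ∀ x, (u - a).1 x = idx (𝔉.B.sd x) (qL (u4 ξ) x) (u.1 x) := fun x => by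
    rw [idn (xm x), sec_p2 h u, ← a2]; rfl
  have k1 : 𝔉.F0.toH k _ (u - a) ∈ N := by
    refine Ap.map_H (rep_mulH (h.cP2 o) (Maps.of_left ((Map77.ok_bd o h).prj2).idem)) hN ?_
      (nt' D R cl con ne ng _ k (u - a).1 (u - a).2.1 (u - a).2.2.1
        (((funext n1 : (u - a).1 = _) ▸ tsupport_app _ _).trans hu) fun x => ?_) _
        (funext (u - a).2.2.2).symm
    · rintro _ ⟨g, g', hg, hg', δ, hδ, rfl⟩ - w hw
      obtain ⟨e', e0, e1, e2⟩ := hit g g' hg hg' δ hδ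
      have z : ∀ x ∉ tsupport g, o.m.p2 𝔉.B x (wg G.F o.m.A g g' x (δ x)) = 0 := fun x hx => by
        rw [show wg G.F o.m.A g g' x (δ x) = 0 by
          ext1 t; simp [wg_apply, image_eq_zero_of_notMem_tsupport fun k => hx (G.F.tsupport_D g _ k)],
          map_zero]
      have z' := closure_minimal (s := support _) (fun x hx => by_contra fun k => hx (z x k))
        (isClosed_tsupport g)
      let v : Sec I o.P2 := ⟨fun x => o.m.p2 𝔉.B x (wg G.F o.m.A g g' x (δ x)),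
        (Std94.sm_p2 D.hB D.ok).clm_apply ((sm_wg hg.sm hg'.sm).clm_apply hδ.choose_spec.2.2.1),
        hg.hcs.of_isClosed_subset isClosed_closure z', fun x => by
          by_cases hx : x ∈ Ω
          · rw [on_P2 (sub hx), p2_p2 D.hB]
          · simp only [z x fun k => hx (hg.sub k), map_zero]⟩
      obtain ⟨a', a3, a4⟩ := A v (z'.trans hg.sub)
      rw [show w = v - a' from Subtype.ext (hw.trans (funext fun x => by
        rw [← (v - a').2.2.2 x]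
        exact congrArg _ ((idn (xm x) _).trans (congrArg _ (a4 x).symm)))), map_sub]
      refine sub_mem (val_injective h.sup hk ((funext fun x => ?_).trans (val_toH h.sup hk v).symm) ▸ e0) a3
      by_cases hx : x ∈ Ω
      exacts [e2 x hx, (e1 x hx).trans (z x fun k => hx (hg.sub k)).symm]
    · rw [idn (xm x), sec_p2 h, sub_eq_self]
      ext1 t
      by_cases hx : x ∈ Ω
      · simp [tn, ab, a2, inner_sub_right, real_inner_smul_right,
          Abel74.norm_sq D.ok (R.mem x hx) (R.sq x hx), mul_right_comm (16⁻¹ : ℝ)]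
      · simp [tn, R.off x hx]
  simpa using add_mem k1 a1

end Crest.Agent.X212.Msi61.Rc
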