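import Crest.Agent.X212.Msi61.Rc1
import Crest.Agent.X212.Hp13.RtM

/-!
# Row 212, NT-R (helper61): the curvature words as perturbations; the leaf RC
-/

set_option autoImplicit false
set_option linter.unusedSectionVars false
noncomputable section
open scoped Manifold ContDiff Topology InnerProductSpace
open MeasureTheory Set Function Filter

namespace Crest.Agent.X212.Msi61.Rc
open An M Nd18 Mod61 Nk89 Cht98 Rf65 Pte3 Qab60 Nr41 Nt66 Eqv71
open An.Job (Sol SolOn)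
open Wrd81 (Tf wg)
open Hp13.Rcj (der0 W_line)
open Nt92 (CvIn cw lnW ND)

/-- the derivative at zero -/
def HD {V : Type} [NormedAddCommGroup V] [NormedSpace ℝ V] (f : ℝ → V) (v : V) : Prop :=
  HasDerivAt f v 0

theorem HD.of {Y V : Type} [NormedAddCommGroup Y] [NormedSpace ℝ Y] [NormedAddCommGroup V]
    [NormedSpace ℝ V] (L : Y →L[ℝ] V) {f : ℝ → Y} {a : Y} {φ : ℝ → V} (hf : HD f a)
    (e : ∀ t, φ t = L (f t)) : HD φ (L a) := (funext e : φ = _) ▸ der0 L hf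

theorem HD.zero {V : Type} [NormedAddCommGroup V] [NormedSpace ℝ V] : HD (fun _ => (0 : V)) 0 :=
  hasDerivAt_const _ _

theorem dd {Y V : Type} [NormedAddCommGroup Y] [NormedSpace ℝ Y] [NormedAddCommGroup V]
    [NormedSpace ℝ V] (L : Y →L[ℝ] V) {f g : ℝ → Y} {a b : Y} {φ : ℝ → V} {v : V}
    (hf : HasDerivAt f a 0) (hg : HasDerivAt g b 0) (hφ : HD φ v)
    (e : ∀ t, L (g t) = L (f t) - φ t) (a0 : a = 0) : L b = -v := by
  have := Hp13.Rt.uq0 (der0 L hg) ((der0 L hf).sub (show HasDerivAt φ v 0 from hφ)) e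
  rw [this, a0, map_zero, zero_sub]

theorem ex4 {A B C D : Type} (V : Type) [NormedAddCommGroup A] [NormedSpace ℝ A]
    [NormedAddCommGroup B] [NormedSpace ℝ B] [NormedAddCommGroup C] [NormedSpace ℝ C]
    [NormedAddCommGroup D] [NormedSpace ℝ D] [NormedAddCommGroup V] [NormedSpace ℝ V]
    {f g : ℝ → (A × B × C) × D} {a b : (A × B × C) × D} (hf : HD f a) (hg : HD g b) (a0 : a = 0)
    (e : ∀ t, (g t).1.1 = (f t).1.1 ∧ (g t).1.2.2 = (f t).1.2.2 ∧ (g t).2 = (f t).2) :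
    b.1.1 = 0 ∧ b.1.2.2 = 0 ∧ b.2 = 0 ∧ ∀ (L : B →L[ℝ] V) φ v, HD φ (-v) →
      (∀ t, L (g t).1.2.1 = L (f t).1.2.1 - φ t) → L b.1.2.1 = v :=
  ⟨(dd (.fst ℝ A (B × C) ∘L .fst ℝ _ D) hf hg .zero (fun t => (e t).1.trans (sub_zero _).symm)
      a0).trans neg_zero, (dd (.snd ℝ B C ∘L .snd ℝ A _ ∘L .fst ℝ _ D) hf hg .zero
      (fun t => (e t).2.1.trans (sub_zero _).symm) a0).trans neg_zero,
    (dd (.snd ℝ (A × B × C) D) hf hg .zero (fun t => (e t).2.2.trans (sub_zero _).symm)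
      a0).trans neg_zero,
    fun L _ _ hφ e => (dd (L ∘L .fst ℝ B C ∘L .snd ℝ A _ ∘L .fst ℝ _ D) hf hg hφ e a0).trans (neg_neg _)⟩

theorem wg_off {Z : Mf 4} {ι lam : Type} [Fintype ι] [Fintype lam] {m : Md Z.M ι lam}
    {B : Base Z.M ι lam} {F : Fr Z.I Z.M ι} {g g' : Z.M → ℝ} {z} {v} (hz : z ∉ tsupport g) :
    m.p2 B z (wg F m.A g g' z v) = 0 := by
  rw [show wg F m.A g g' z v = 0 by
    ext1 t
    simp [Wrd81.wg_apply, image_eq_zero_of_notMem_tsupport fun k => hz (F.tsupport_D g _ k)], map_zero]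

section job
variable {Wi : Type} {X : Mf 4} {A κ lam : Type} [Fintype A] [Fintype κ] [Fintype lam]
  [DecidableEq lam] {M : Mark X A κ} {W : World M} {N : ML M lam} {Λ : Lns W N}
  {A' h : Type} [Fintype A'] [DecidableEq A'] [Fintype h] {r n : ℕ}
  {J : Job Wi Λ A' h r n} {c : M.Cl} {σ : Cel A'} {p : Prt A A' h} {U : Type} [Fintype U] {δ : ℝ}
  {b : Bp J c} {E : EC b p U δ} {q q' : Wi →₀ ℝ} {y : J.Obc c} {s : A' → ℝ}

theorem τ_lin (t : ℝ) (x : Cg' W c lam r) :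
    (∀ z, (J.τ c (q + t • q') s).D x z = (J.τ c q s).D x z + t • (fsum (J.τw c s) q').D x z) ∧
    (∀ z, (J.τ c (q + t • q') s).C x z = (J.τ c q s).C x z + t • (fsum (J.τw c s) q').C x z) ∧
    ∀ i, (J.τ c (q + t • q') s).S x i = (J.τ c q s).S x i + t * (fsum (J.τw c s) q').S x i := by
  refine ⟨fun z => ?_, fun z => ?_, fun z => ?_⟩ <;>
    simp [Job.τ, fsum, Pt.add, Finsupp.sum_add_index', Finsupp.sum_smul_index', add_smul, add_mul,
      add_assoc, Finsupp.smul_sum, Finsupp.mul_sum, mul_smul, mul_assoc]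

variable (J c s q') in
/-- perturbations of the curvature row only -/
structure Pu : Prop where
  cc : ∀ w ∈ q'.support, ∀ l, J.cc l w s = 0
  D : ∀ x z, (fsum (J.τw c s) q').D x z = 0
  S : ∀ x i, (fsum (J.τw c s) q').S x i = 0

theorem sop (hP : PJ J c) (h : Sol σ q y) (hp : Pu J c q' y.s)
    (h0 : ∀ z, (fsum (J.τw c y.s) q').C y.x z = 0) (t : ℝ) : Sol σ (q + t • q') y := by
  obtain ⟨a1, a2, a3⟩ := τ_lin (J := J) (q := q) (q' := q') (s := y.s) t y.x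
  refine ⟨h.cell, h.inf, ⟨h.sol.toAdm, fun z => ?_, fun z => ?_, fun i => ?_⟩, h.sub,
    fun j hj => ⟨(h.cut j hj).1, (h.cut j hj).2.trans ?_⟩, h.drop, h.lim, h.crit, fun a ha => ?_,
    h.int, h.lev⟩
  · rw [Cfg.eD, a1, hp.D, smul_zero, add_zero]; exact h.sol.D z
  · rw [Cfg.eC, a2, h0, smul_zero, add_zero]; exact h.sol.C z
  · rw [a3, hp.S, mul_zero, add_zero]; exact h.sol.S i
  · rw [Abx52.σc_add, Abx52.σc_zero fun w hw => hp.cc w (Finsupp.support_smul hw) j, add_zero]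
  · have : ∀ q, (J.xs a).q q = 0 := fun q => by simp [Xs.q, (hP.nil a ha).2]
    rw [this, ← this q]
    exact h.brk a ha

theorem words (hJ : J.OK) (hσ : σ ∈ J.𝒦) (hs : J.Ov σ c s) {ρ : Reg A} (pc : M.sys.Piece c.1 ρ)
    (om : W.pc c ρ = W.φ c '' M.sys.U ρ) (hR : J.RichT s ρ) {g g'} (hg : Tf (W.Z c).I (W.pc c ρ) g)
    (hg' : Tf (W.Z c).I (W.pc c ρ) g') (w : AW (W.Z c).M →₀ ℝ)
    (hw : ∀ u ∈ w.support, CvIn (W.Z c).I (W.pc c ρ) u) : ∃ q', Pu J c q' s ∧ ∀ x z,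
      (fsum (J.τw c s) q').C x z = -x.m.p2 (J.B c) z (wg (J.G c s).F x.m.A g g' z
        (w.sum fun u a => a • cw x.m (J.G c s).F x.W u z)) := by
  obtain ⟨e, e1, e2⟩ := Wrd81.exists_tf_one (I := (W.Z c).I) hg.hcs (Cyl58.isClopen_pc _ pc).2 hg.sub
  have iv := (Wrd81.inv_tp (J := J) (Wrd81.br_of hJ hσ hs) (Wrd81.U_src W.toCaps pc)).1
  rw [← om] at iv
  choose v v1 v2 v3 v4 using fun u : w.support => iv.ad (Av := fun τ => ∃ v, (J.tp c).tm (J.tw v) = τ ∧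
    J.co v s ≠ 0 ∧ (∀ l, J.cc l v s = 0) ∧ J.Nn v s) (fun g g' t e l h1 h2 h3 =>
      let ⟨w, k1, k2⟩ := hR.a _ _ _ _ _ h1 h2 h3; ⟨w, congrArg _ k1, k2⟩) g g' u.1.s e u.1.l hg hg'
    ⟨(hw _ u.2).1.1, (hw _ u.2).1.2.cons e1⟩
  have k := fun u x => Wrd81.τw_eq (c := c) (v4 u) x
  refine ⟨∑ u, Finsupp.single (v u) (-w u / J.co (v u) s), ⟨fun w hw => ?_, fun x z => ?_,
    fun x i => ?_⟩, fun x z => ?_⟩
  · obtain ⟨j, -, k⟩ := Finsupp.mem_support_finsetSum _ hw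
    obtain rfl := Finset.mem_singleton.1 (Finsupp.support_single_subset k)
    exact v3 j
  all_goals
    simp only [fsum]
    rw [← Finsupp.sum_finsetSum_index (fun _ => by simp) fun _ _ _ => by simp [add_smul, add_mul]]
  · exact Finset.sum_eq_zero fun u _ => by simp [(k u x).1, v1, Cfg.tD]
  · exact Finset.sum_eq_zero fun u _ => by simp [(k u x).2.2, v1, Cfg.tS]
  · rw [Finsupp.sum, ← Finset.sum_coe_sort w.support, map_sum, map_sum, ← Finset.sum_neg_distrib]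
    refine Finset.sum_congr rfl fun u _ => ?_
    rw [Finsupp.sum_single_index (by simp), (k u x).2.1, v1, Pi.smul_apply, smul_smul,
      div_mul_cancel₀ _ (v2 u), map_smul, map_smul, Wrd81.wg_apply, ← Nt92.aw_eq x _ (hw _ u.2),
      ← neg_smul]
    refine congrArg _ (congrArg (x.m.p2 (J.B c) z) (congrArg _ (funext fun t => ?_)))
    show _ • e z • x.aw _ u.1 z = _
    by_cases hz : z ∈ tsupport g
    · rw [e2 z hz, one_smul]
    · simp [image_eq_zero_of_notMem_tsupport fun k => hz ((J.G c s).F.tsupport_D g _ k)]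

variable (s q') in
/-- the value of the perturbation -/
def vw (x : Pnt E.o r) (z : (W.Z c).M) : Fm (Option κ × Option κ) E.o.m.A :=
  (fsum (J.τw c s) q').C x.cfg z

variable (H : CS σ E) (hU : W.un c p.P = univ) {f g : E.C → E.Y}
include H

theorem cmp (hf : E.Map q f) (hg : E.Map (q + q') g) (x : Pnt E.o r) (ψ : E.K)
    (hp : Pu J c q' (b.θ p U x.t)) :
    ((g (x.pt 8, ψ)).1.1 = (f (x.pt 8, ψ)).1.1 ∧ (g (x.pt 8, ψ)).1.2.2 = (f (x.pt 8, ψ)).1.2.2 ∧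
    (g (x.pt 8, ψ)).2 = (f (x.pt 8, ψ)).2) ∧ ∀ z ∈ W.un c p.P, vC (g (x.pt 8, ψ)) z =
      vC (f (x.pt 8, ψ)) z - vw q' (b.θ p U x.t) x z := by
  obtain ⟨t1, t2, t3⟩ := τ_lin (J := J) (q := q) (q' := q') (s := b.θ p U x.t) 1 x.cfg
  rw [one_smul] at t1 t2 t3
  obtain ⟨a1, a2, a3, a4⟩ := tot_ev (b := b) (U := U) (δ := δ) (t := x.t) (q := q + q') x.cfg
  obtain ⟨b1, b2, b3, b4⟩ := tot_ev (b := b) (U := U) (δ := δ) (t := x.t) (q := q) x.cfg
  have k := hg.e x ψ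
  have k' := hf.e x ψ
  refine ⟨⟨Sob92.val_injective H.F.sup (by norm_num) (k.D.trans (.trans (congrArg _ (funext fun z =>
    (a1 z).trans (.trans ?_ (b1 z).symm))) k'.D.symm)), Prod.ext (k.S.trans (.trans (funext fun i =>
    (a3 i).trans (.trans ?_ (b3 i).symm)) k'.S.symm)) (k.R.trans ((a4.trans b4.symm).trans k'.R.symm)),
    Prod.ext (funext fun j => (hg.row x ψ j).trans (.trans ?_ (hf.row x ψ j).symm))
      (funext fun j => (hg.nrm x ψ j).trans (hf.nrm x ψ j).symm)⟩, fun z hz => ?_⟩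
  · rw [Cfg.eD, Cfg.eD, t1, hp.D, smul_zero, add_zero]
  · rw [t3, hp.S, mul_zero, add_zero]
  · rw [Hp13.Rt.row_add, Nt66.sg, Abx52.σc_zero fun w hw => hp.cc w hw j]
    exact DFunLike.congr_fun (sub_zero (E.row q x j)) _
  · refine (congrFun k.C z).trans ((indicator_of_mem hz _).trans ((a2 z).trans (.trans ?_
      (congrArg (· - _) ((congrFun k'.C z).trans ((indicator_of_mem hz _).trans (b2 z))).symm))))
    rw [Cfg.eC, Cfg.eC, t2, one_smul, sub_add_eq_sub_sub]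
    rfl

include hU

theorem van_y {x : Pnt E.o r} {ψ : E.K} (S : SolOn p σ q y) (R : E.RepC y x ψ)
    (hθ : b.θ p U x.t = y.s) (h0 : ∀ z, vw q' y.s x z = 0) (z) :
    (fsum (J.τw c y.s) q').C y.x z = 0 := by
  obtain ⟨u, ζ, e, -⟩ := R.e
  have k := H.cr S R.s e
  rw [hθ] at k
  refine ((prel0_fsum (H.ok.τw_nat H.mem S.ov H.cl) q').C ⟨k.adm', k.adm, k.off', k.off,
    ceq_symm_id (Λ.B_ok _ _) (H.ok.G_ok H.mem S.ov) H.cl.2 k.adm k.adm' k.e⟩ z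
    (hU.ge trivial)).trans ?_
  exact (congrArg _ (h0 z)).trans (map_zero _)

theorem der (hf : E.Map q f) (hg : E.Map (q + q') g) {x : Pnt E.o r} (ψ : E.K)
    (hθ : b.θ p U x.t = s) (hp : Pu J c q' s) {α : (W.Z c).M → Fm (Option κ) E.o.m.A}
    (hα : α ∈ Mod61.Hs (b.F p U δ).F0.toPre E.o.P1) {η : E.K}
    (k : Ld f x ψ (va E α η) = 0) {v : (W.Z c).M → Fm (Option κ × Option κ) E.o.m.A}
    (hv : ∀ z, HD (fun t => vw q' s (ln x hα (zero_mem _) t) z) (-v z)) {O : Set (W.Z c).M}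
    (h0 : ∀ z ∉ O, v z = 0) :
    Tg ∅ O ∅ (Ld g x ψ (va E α η)) ∧ ∀ z ∈ O, vC (Ld g x ψ (va E α η)) z = v z := by
  subst hθ
  have a := der_lnC H.F x hα (zero_mem _) hg.sm ψ η
  have a' := der_lnC H.F x hα (zero_mem _) hf.sm ψ η
  rw [ofV_zero H.F.sup (by norm_num)] at a a'
  have m := fun t : ℝ => cmp H hf hg (ln x hα (zero_mem _) t) (ψ + t • η) hp
  obtain ⟨c2, c3, c4, c5⟩ := ex4 (Fm (Option κ × Option κ) E.o.m.A) a' a k fun t => (m t).1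
  have c1 : ∀ z, vC (Ld g x ψ (va E α η)) z = v z := fun z =>
    c5 ((b.F p U δ).F0.ev 8 E.o.P2 z) _ _ (hv z) fun t => (m t).2 z (hU.ge trivial)
  exact ⟨⟨fun z _ => (congrArg ((b.F p U δ).F0.val 8 E.o.Pm · z) c2).trans
    (congrFun Sob92.val_zero z), fun z hz => (c1 z).trans (h0 z hz), c3, fun i _ =>
    ⟨congrFun (congrArg Prod.fst c4) i, congrFun (congrArg Prod.snd c4) i⟩⟩, fun z _ => c1 z⟩

end job

open G75 Ins26 Jb7
variable {κ lam : Type} [Fintype κ] [Fintype lam] [DecidableEq lam] {Lm : LM κ lam}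
  {S : Scene Lm} {D : S.Dat} {i : S.L} {Wi : Type} {r n : ℕ}
  {J : Job Wi (D.Λ i) (S.A ⊕ Unit) S.ls r n} {c : S.M.Cl} {δ : ℝ} {σ : Cel (S.A ⊕ Unit)} {R : S.A}
  {b : Bp J c} {E : ER σ R b δ} {q : Wi →₀ ℝ} {y : J.Obc c} {x : Pnt E.o r} {ψ : E.K}
  {ξ : (D.W.Z c).M → E.o.m.A} (C : Cr q y x ψ ξ)
include C

theorem richT : J.RichT y.s (hp R false) := by
  obtain ⟨_, _, _, _, _, _, g⟩ := C.jr
  obtain ⟨_, _, w⟩ := g.ri.rw
  exact ((g.gx.rich σ C.cs.mem _ C.sol.cell c C.sol.inf (by simp)).2 _ (Hp13.Rt.pc C false)).1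
    fun _ hl e => w.nl ((Mp86.St.hp_some.1 e).1 ▸ hl)

theorem wd_at {α} (a : α ∈ Mod61.Hs (FW σ R b δ).F0.toPre E.o.P1) {g g'}
    (hg : Tf (D.W.Z c).I (oI D.W c R) g) (hg' : Tf (D.W.Z c).I (oI D.W c R) g') {d}
    (nd : ND (D.W.Z c).I E.o.m (J.G c y.s).F x.cfg.W (fa E x.t α) (oI D.W c R) d) :
    ∃ q', Pu J c q' y.s ∧ (∀ z, vw q' y.s x z = 0) ∧ ∀ z, HD (fun t => vw q' y.s (ln x a (zero_mem _) t) z)
      (-E.o.m.p2 (J.B c) z (wg (J.G c y.s).F E.o.m.A g g' z (d z))) := by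
  obtain ⟨w, w1, w2, -, w3⟩ := nd
  have pc := Hp13.Rt.pc C false
  obtain ⟨q', p1, p2⟩ := words C.cs.ok C.cs.mem C.sol.ov pc (Hp13.Rt.pc_eq C.one C.np pc) (richT C)
    hg hg' w w1
  let L := fun z => -(E.o.m.p2 (J.B c) z ∘L wg (J.G c y.s).F E.o.m.A g g' z)
  have p3 : ∀ (x' : Pnt E.o r) z, vw q' y.s x' z =
      L z (w.sum fun u a => a • cw E.o.m (J.G c y.s).F x'.cfg.W u z) := fun x' z => p2 x'.cfg z
  have e : ∀ t, (ln x a (zero_mem _) t).cfg.W = lnW E.o.m x.cfg.W (fa E x.t α) t :=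
    fun t => W_line x t
  exact ⟨q', p1, fun z => (p3 x z).trans ((congrArg (L z) (w2 z)).trans (map_zero _)), fun z =>
    HD.of (L z) (w3 z) fun t => (p3 _ z).trans (congrArg
      (fun V : E.o.m.Cn => L z (w.sum fun u a => a • cw E.o.m (J.G c y.s).F V u z)) (e t))⟩

theorem kp (q') (p1 : Pu J c q' y.s) (p2 : ∀ z, vw q' y.s x z = 0) : q' ∈ Kp σ y := fun _ k t =>
  sop C.an.pj k p1 (van_y C.cs (Abx52.un_two C.one) (Hp13.Rt.solOn C) C.ch.rep C.θ p2) t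

theorem hit_at {f : E.C → E.Y} (hf : E.Map q f) : Hit C f := by
  intro st α hα η k g g' hg hg' d nd
  have a := Nr55.ha_hs C hα
  have w := wd_at C a hg hg' nd
  obtain ⟨q', p⟩ := w
  have m := st.st q' (kp C q' p.1 p.2.1)
  obtain ⟨g₁, h⟩ := m
  have e := der C.cs (Abx52.un_two C.one) hf h.1 ψ C.θ p.1 a k (O := oI D.W c R)
    (v := fun z => E.o.m.p2 (J.B c) z (wg (J.G c y.s).F E.o.m.A g g' z (d z))) p.2.2
    fun _ hz => wg_off fun k => hz (hg.sub k)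
  exact ⟨_, h.2 _ k, e⟩

omit C in
variable (Lm) in
/-- **LEAF RC** -/
theorem rc : All Lm RchC := rchC Lm fun _ _ _ _ _ _ _ _ _ _ =>
  ⟨1, one_pos, fun _ _ _ _ _ _ _ _ _ _ _ C _ hf => hit_at C hf⟩

end Crest.Agent.X212.Msi61.Rc
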